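import Vale.Agent.P110.UF.Pack.Defs

/-!
# P110: from disjoint intervals to a tiling

Cells left uncovered get a window of their own with coefficient `1/2`.
-/

open Finset

namespace Vale.Agent.P110.UF.Pack

lemma norm_ex (x : ℝ) : ‖ex x‖ = 1 := Complex.norm_exp_ofReal_mul_I _

variable {ι ω : Type} [Fintype ι] [Fintype ω] [DecidableEq ω]

/-- Disjoint intervals that leave few cells uncovered give a tiling. -/
theorem assemble (ε : ℝ) (hε : 0 ≤ ε) (L : ℕ) (hL : 0 < L) (hev : 2 ∣ L) (dur : ω → ℝ)
    (hd : ∀ j, 0 < dur j) (st len : ι → ℕ) (up : ι → Bool) (win : ι → ω) (coef : ι → ℂ)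
    (hlen : ∀ i, 0 < len i) (hin : ∀ i, 2 * (st i + len i) ≤ L)
    (hdis : ∀ i i' a, st i ≤ a → a < st i + len i → st i' ≤ a → a < st i' + len i' → i = i')
    (hw : ∀ i, (len i : ℝ) = dur (win i) * L * ‖coef i‖ ^ 2)
    (hb : ∀ j, ∀ k : ℤ, ∀ u : ℝ,
      |2 * (∑ i ∈ univ.filter (fun i => win i = j),
        coef i * ex ((if up i then (st i : ℝ) * k + len i * u
          else ((st i + len i : ℕ) : ℝ) * k - len i * u) / L)).re| ≤ 1 + ε)
    (hbudget : ∑ j, dur j + (2 - 4 * (∑ i, (len i : ℝ)) / L) ≤ 1 + ε) :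
    Nonempty (Tiling ε) := by
  classical
  set used : Finset ℕ := univ.biUnion fun i => Ico (st i) (st i + len i) with hused
  set rest : Finset ℕ := range (L / 2) \ used with hrest
  have hsub : used ⊆ range (L / 2) := by
    intro a ha
    obtain ⟨i, -, hi⟩ := mem_biUnion.1 ha
    have h1 := mem_Ico.1 hi
    have h2 := hin i
    exact mem_range.2 (by omega)
  have hdisj : ((univ : Finset ι) : Set ι).PairwiseDisjoint fun i => Ico (st i) (st i + len i) :=
    fun i _ i' _ hne => disjoint_left.2 fun a ha ha' =>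
      hne (hdis i i' a (mem_Ico.1 ha).1 (mem_Ico.1 ha).2 (mem_Ico.1 ha').1 (mem_Ico.1 ha').2)
  have hcard : (#(rest) : ℝ) = (L : ℝ) / 2 - ∑ i, (len i : ℝ) := by
    have h1 : #(rest) + #(used) = L / 2 := by
      rw [hrest, card_sdiff_add_card_eq_card hsub, card_range]
    have h2 : #(used) = ∑ i, len i := by
      rw [hused, card_biUnion hdisj]
      exact sum_congr rfl fun i _ => by rw [Nat.card_Ico, Nat.add_sub_cancel_left]
    rw [h2] at h1
    have h3 : ((#(rest) + ∑ i, len i : ℕ) : ℝ) = ((L / 2 : ℕ) : ℝ) := by rw [h1]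
    rw [Nat.cast_div hev (by norm_num)] at h3
    push_cast at h3
    linarith
  let W := ω ⊕ rest
  let X := ι ⊕ rest
  let eW := Fintype.equivFin W
  let eX := Fintype.equivFin X
  let durW : W → ℝ := Sum.elim dur fun _ => 4 / (L : ℝ)
  let stX : X → ℕ := Sum.elim st fun a => a.1
  let lenX : X → ℕ := Sum.elim len fun _ => 1
  let upX : X → Bool := Sum.elim up fun _ => true
  let winX : X → W := Sum.elim (fun i => Sum.inl (win i)) Sum.inr
  let coefX : X → ℂ := Sum.elim coef fun _ => (1 / 2 : ℂ)
  have hLR : (0 : ℝ) < L := Nat.cast_pos.2 hL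
  have hinX : ∀ x : X, 2 * (stX x + lenX x) ≤ L := by
    rintro (i | ⟨a, ha⟩)
    · exact hin i
    · have := mem_range.1 (mem_sdiff.1 ha).1
      simp only [stX, lenX, Sum.elim_inr]
      omega
  have hlenX : ∀ x : X, 0 < lenX x := by
    rintro (i | a)
    · exact hlen i
    · exact Nat.one_pos
  have hcovX : ∀ a : ℕ, 2 * a < L → ∃! x : X, stX x ≤ a ∧ a < stX x + lenX x := by
    intro a ha
    by_cases hu : a ∈ used
    · obtain ⟨i, -, hi⟩ := mem_biUnion.1 hu
      refine ⟨Sum.inl i, mem_Ico.1 hi, ?_⟩
      rintro (i' | ⟨b, hb⟩) ⟨h1, h2⟩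
      · exact congrArg Sum.inl (hdis i' i a h1 h2 (mem_Ico.1 hi).1 (mem_Ico.1 hi).2)
      · simp only [stX, lenX, Sum.elim_inr] at h1 h2
        obtain rfl : a = b := by omega
        exact absurd hu (mem_sdiff.1 hb).2
    · have hr : a ∈ rest := mem_sdiff.2 ⟨mem_range.2 (by omega), hu⟩
      refine ⟨Sum.inr ⟨a, hr⟩, by simp [stX, lenX], ?_⟩
      rintro (i' | ⟨b, hb⟩) ⟨h1, h2⟩
      · exact (hu (mem_biUnion.2 ⟨i', mem_univ _, mem_Ico.2 ⟨h1, h2⟩⟩)).elim
      · simp only [stX, lenX, Sum.elim_inr] at h1 h2
        exact congrArg Sum.inr (Subtype.ext (by show b = a; omega))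
  refine ⟨{ L := L, L_pos := hL, L_even := hev, J := Fintype.card W, I := Fintype.card X
            dur := fun j => durW (eW.symm j)
            st := fun i => stX (eX.symm i)
            len := fun i => lenX (eX.symm i)
            up := fun i => upX (eX.symm i)
            win := fun i => eW (winX (eX.symm i))
            coef := fun i => coefX (eX.symm i)
            dur_pos := ?_, dur_sum := ?_, len_pos := fun i => hlenX _
            inside := fun i => hinX _, cover := ?_, weight := ?_, bound := ?_ }⟩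
  · intro j
    rcases eW.symm j with j | a
    · exact hd j
    · exact div_pos (by norm_num) hLR
  · rw [Equiv.sum_comp eW.symm durW, Fintype.sum_sum_type]
    simp only [durW, Sum.elim_inl, Sum.elim_inr, sum_const, card_univ, Fintype.card_coe,
      nsmul_eq_mul]
    refine le_trans (le_of_eq ?_) hbudget
    rw [hcard]
    field_simp
    ring
  · intro a ha
    obtain ⟨x, hx, hux⟩ := hcovX a ha
    refine ⟨eX x, by simpa using hx, fun i hi => ?_⟩
    rw [← hux (eX.symm i) hi, Equiv.apply_symm_apply]
  · intro i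
    simp only [Equiv.symm_apply_apply]
    rcases eX.symm i with i | a
    · exact hw i
    · simp only [lenX, durW, winX, coefX, Sum.elim_inr, Nat.cast_one]
      rw [norm_div, norm_one, RCLike.norm_ofNat]
      field_simp
      ring
  · intro j k u
    rw [Finset.sum_filter,
      Equiv.sum_comp eX.symm (fun x => if eW (winX x) = j then coefX x * ex ((if upX x then
        (stX x : ℝ) * k + lenX x * u else ((stX x + lenX x : ℕ) : ℝ) * k - lenX x * u) / L) else 0),
      Fintype.sum_sum_type]
    obtain ⟨w, rfl⟩ := eW.surjective j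
    simp only [EmbeddingLike.apply_eq_iff_eq, winX, coefX, stX, lenX, upX, Sum.elim_inl,
      Sum.elim_inr]
    rcases w with j | a
    · simp only [reduceCtorEq, if_false, sum_const_zero, add_zero]
      rw [← Finset.sum_filter]
      have e : univ.filter (fun i => (Sum.inl (win i) : W) = Sum.inl j) =
          univ.filter (fun i => win i = j) := by
        ext; simp
      rw [e]
      exact hb j k u
    · simp only [reduceCtorEq, if_false, sum_const_zero, zero_add]
      rw [Finset.sum_eq_single a (fun b _ hb' => if_neg fun h => hb' (Sum.inr.inj h))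
        (fun h => absurd (mem_univ a) h), if_pos rfl]
      refine le_trans ?_ (le_add_of_nonneg_right hε)
      rw [abs_mul, abs_two]
      refine le_trans (mul_le_mul_of_nonneg_left (Complex.abs_re_le_norm _) (by norm_num)) ?_
      rw [norm_mul, norm_ex, norm_div, norm_one, RCLike.norm_ofNat]
      norm_num

end Vale.Agent.P110.UF.Pack
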