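import Vale.Agent.P110.UF.Pack.Cfg

/-!
# P110: the intervals are disjoint
-/

open Finset
open scoped Classical

namespace Vale.Agent.P110.UF.Pack

namespace Cfg

variable (K : Cfg)

/-- All intervals of a piece: a vector with a tooth. -/
noncomputable def items (j : K.Piece) : Finset (K.Vec × ℕ) :=
  (univ ×ˢ range K.L).filter fun p => p.2 ∈ K.comb j p.1

lemma mem_items {j : K.Piece} {p : K.Vec × ℕ} : p ∈ K.items j ↔ p.2 ∈ K.comb j p.1 := by
  simp only [items, mem_filter, mem_product, mem_univ, true_and, and_iff_right_iff_imp]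
  exact fun h => (mem_filter.1 h).1

lemma dvd_mod_eq {a b c : ℕ} (hc : c < a) (h : (a : ℤ) ∣ (b : ℤ) - c) : b % a = c := by
  have := (Int.emod_eq_emod_iff_emod_sub_eq_zero (m := (b : ℤ)) (k := (c : ℤ)) (n := (a : ℤ))).2
    (Int.emod_eq_zero_of_dvd h)
  rw [← Int.natCast_mod, ← Int.natCast_mod, Nat.mod_eq_of_lt hc] at this
  exact_mod_cast this

lemma O_dvd (j : K.Piece) (m : K.Vec) :
    (K.R : ℤ) ∣ K.O j m ∧ (K.mP j m : ℤ) ∣ K.O j m ∧ (K.mQ j m : ℤ) ∣ K.O j m :=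
  ⟨Int.natCast_dvd_natCast.2 (dvd_mul_right _ _),
    Int.natCast_dvd_natCast.2 (dvd_mul_of_dvd_right (dvd_mul_right _ _) _),
    Int.natCast_dvd_natCast.2 (dvd_mul_of_dvd_right (dvd_mul_left _ _) _)⟩

lemma comb_mod {j : K.Piece} {m : K.Vec} {x : ℕ} (hx : x ∈ K.comb j m) :
    x < K.L ∧ x % K.R = K.bp j m := by
  obtain ⟨h1, h2⟩ := mem_filter.1 hx
  refine ⟨mem_range.1 h1, dvd_mod_eq (K.bp_lt j m) ?_⟩
  have := ((K.O_dvd j m).1.trans h2).add (K.lo_R j m)
  simpa using this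

lemma comb_end {j : K.Piece} {m : K.Vec} {x : ℕ} (hx : x ∈ K.comb j m) : x + K.n m ≤ K.L := by
  obtain ⟨h1, h2⟩ := K.comb_mod hx
  obtain ⟨-, -, h3⟩ := block_bound (K.bp_lt j m) (K.bp_fit j m)
  have hR : K.R ∣ K.L := dvd_mul_right _ _
  obtain ⟨q, hq⟩ := hR
  have h4 := Nat.div_add_mod x K.R
  have h5 : x / K.R + 1 ≤ q := by
    rw [Nat.succ_le_iff, Nat.div_lt_iff_lt_mul K.R_pos, mul_comm q]
    omega
  have h6 : K.R * (x / K.R + 1) ≤ K.R * q := Nat.mul_le_mul_left _ h5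
  rw [mul_add, mul_one, ← hq] at h6
  have : K.bp j m + K.n m ≤ K.R := h3
  omega

/-- An interval lies in one of the two halves of the circle. -/
lemma comb_half {j : K.Piece} {m : K.Vec} {x : ℕ} (hx : x ∈ K.comb j m) :
    2 * (x + K.n m) ≤ K.L ∨ K.L ≤ 2 * x := by
  obtain ⟨-, h2⟩ := K.comb_mod hx
  obtain ⟨h7, h8, h3⟩ := block_bound (K.bp_lt j m) (K.bp_fit j m)
  have h4 := Nat.div_add_mod x K.R
  obtain ⟨h, hh⟩ : Odd (∏ q, K.P.md q) :=
    Finset.prod_induction _ Odd (fun _ _ ha hb => ha.mul hb) odd_one fun q _ => K.P.md_odd q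
  have hL : K.L = 2 * (K.R * h) + K.R := by rw [L, hh]; ring
  have hR : K.R = 2 * (K.H * K.B) := by ring
  rcases lt_trichotomy (x / K.R) h with hq | hq | hq
  · left
    have h6 : K.R * (x / K.R + 1) ≤ K.R * h := Nat.mul_le_mul_left _ hq
    rw [mul_add, mul_one] at h6
    have : K.bp j m + K.n m ≤ K.R := h3
    omega
  · rw [hq] at h4
    rcases Nat.lt_or_ge (K.blk j m) K.H with hb | hb
    · left
      have h9 : (K.bp j m / K.B + 1) * K.B ≤ K.H * K.B := Nat.mul_le_mul_right _ hb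
      have : K.bp j m + K.n m ≤ (K.bp j m / K.B + 1) * K.B := h8
      omega
    · right
      have h9 : K.H * K.B ≤ K.blk j m * K.B := Nat.mul_le_mul_right _ hb
      have h10 : K.blk j m * K.B ≤ K.bp j m := Nat.div_mul_le_self _ _
      omega
  · right
    have h6 : K.R * (h + 1) ≤ K.R * (x / K.R) := Nat.mul_le_mul_left _ hq
    rw [mul_add, mul_one] at h6
    omega

/-- The mirror of a tooth. -/
noncomputable def mirror (p : K.Vec × ℕ) : K.Vec × ℕ := (K.neg p.1, K.L - p.2 - K.n p.1)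

lemma mirror_mem {j : K.Piece} {p : K.Vec × ℕ} (hp : p ∈ K.items j) : K.mirror p ∈ K.items j := by
  rw [mem_items] at hp ⊢
  have hend := K.comb_end hp
  have hn := K.n_pos p.1
  obtain ⟨-, h2⟩ := mem_filter.1 hp
  refine mem_filter.2 ⟨mem_range.2 (show K.L - p.2 - K.n p.1 < K.L by omega), ?_⟩
  simp only [mirror, K.O_neg, K.lo_neg]
  have hL : (K.O j p.1 : ℤ) ∣ K.L := Int.natCast_dvd_natCast.2 ⟨_, K.L_eq j p.1⟩
  rw [show ((K.L - p.2 - K.n p.1 : ℕ) : ℤ) - (-K.lo j p.1 - K.n p.1) =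
      (K.L : ℤ) - ((p.2 : ℤ) - K.lo j p.1) by
    rw [Nat.cast_sub (by omega), Nat.cast_sub (by omega)]; ring]
  exact hL.sub h2

lemma mirror_mirror {j : K.Piece} {p : K.Vec × ℕ} (hp : p ∈ K.items j) :
    K.mirror (K.mirror p) = p := by
  have hend := K.comb_end ((K.mem_items).1 hp)
  simp only [mirror, K.neg_neg, K.n_neg]
  exact Prod.ext rfl (show K.L - (K.L - p.2 - K.n p.1) - K.n p.1 = p.2 by omega)

lemma mirror_half {j : K.Piece} {p : K.Vec × ℕ} (hp : p ∈ K.items j) :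
    2 * ((K.mirror p).2 + K.n (K.mirror p).1) ≤ K.L ↔ ¬ 2 * (p.2 + K.n p.1) ≤ K.L := by
  have hend := K.comb_end ((K.mem_items).1 hp)
  have hhalf := K.comb_half ((K.mem_items).1 hp)
  have hn := K.n_pos p.1
  simp only [mirror, K.n_neg]
  omega

lemma fib_card (m : K.Vec) (p : ℕ)
    (hfib : ∀ x : ZMod K.R,
      #(univ.filter fun w : Fin K.d → ZMod K.R => lin K.R m.1 w = x) * K.R = K.R ^ K.d) :
    #(K.fib m p) ≤ K.K1 := by
  have h := hfib ((p : ZMod K.R) + (K.sh m : ZMod K.R))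
  refine le_trans (card_le_card_of_injOn (fun j : K.Piece => j.1)
    (t := (univ.filter fun w => lin K.R m.1 w = (p : ZMod K.R) + (K.sh m : ZMod K.R)) ×ˢ univ)
    (fun j hj => ?_) fun a _ b _ e => Subtype.ext e) ?_
  · simp only [mem_coe, fib, mem_filter, mem_univ, true_and] at hj
    simp only [mem_coe, mem_product, mem_filter, mem_univ, true_and, and_true, ← hj]
    exact (pos_cast _ _ _).symm
  · rw [card_product, card_univ, Fintype.card_fin, K1, mul_comm]
    refine Nat.mul_le_mul_left _ (le_of_eq ?_)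
    refine Nat.eq_of_mul_eq_mul_right K.R_pos ?_
    rw [h, ← pow_succ, Nat.sub_add_cancel K.d_pos]

lemma code_lt (t : Fin K.H) (x : K.Child t) : K.code t x < K.P.md (Sum.inl t) := by
  refine lt_of_lt_of_le (Fin.isLt _) ?_
  simp only [Child, Fintype.card_sigma, Fintype.card_prod, Fintype.card_fin]
  suffices h : ((∑ m, K.n m * K.nq t m : ℕ) : ℝ) ≤ (K.P.md (Sum.inl t) : ℝ) by exact_mod_cast h
  set P := (K.P.md (Sum.inl t) : ℝ) with hP
  have hterm : ∀ m : K.Vec, ((K.n m * K.nq t m : ℕ) : ℝ) ≤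
      (1 - K.κ) * P * ‖K.c m.1‖ ^ 2 + (K.n m : ℝ) := by
    intro m
    have hq : (0 : ℝ) < K.P.md (Sum.inr (t, m)) := Nat.cast_pos.2 (K.md_pos _)
    have h1 : (K.n m : ℝ) * (K.K1 : ℝ) ≤
        (1 - K.κ) * (‖K.c m.1‖ ^ 2 * P * K.P.md (Sum.inr (t, m))) := (K.P.ratio t m).2
    have h2 : ((K.K1 / K.P.md (Sum.inr (t, m)) : ℕ) : ℝ) ≤
        (K.K1 : ℝ) / K.P.md (Sum.inr (t, m)) := Nat.cast_div_le
    simp only [nq, Nat.cast_mul, Nat.cast_add, mul_add, mul_one]
    refine add_le_add ((mul_le_mul_of_nonneg_left h2 (Nat.cast_nonneg _)).trans ?_) le_rfl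
    rw [← mul_div_assoc, div_le_iff₀ hq]
    linarith
  push_cast
  have h3 := sum_le_sum fun m (_ : m ∈ (univ : Finset K.Vec)) => hterm m
  rw [sum_add_distrib, ← mul_sum] at h3
  have h4 : ∑ m : K.Vec, ‖K.c m.1‖ ^ 2 ≤ 1 := by
    rw [sum_coe_sort K.S (fun m => ‖K.c m‖ ^ 2)]
    exact K.energy
  have h5 : ((∑ m : K.Vec, K.n m : ℕ) : ℝ) ≤ K.κ * P := K.P.room t
  have h6 : (1 - K.κ) * P * ∑ m : K.Vec, ‖K.c m.1‖ ^ 2 ≤ (1 - K.κ) * P * 1 :=
    mul_le_mul_of_nonneg_left h4 (mul_nonneg (by linarith [K.ksmall]) (Nat.cast_nonneg _))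
  push_cast at h3 h5
  linarith

variable (hfib : ∀ (m : K.Vec) (p : ℕ), #(K.fib m p) ≤ K.K1)
include hfib

lemma child_inj {j j' : K.Piece} {m m' : K.Vec} {t : Fin K.H}
    (h : K.child j m t = K.child j' m' t) (hpp : K.bp j m % K.n m = K.bp j' m' % K.n m' →
      m = m' → K.bp j m = K.bp j' m')
    (hres : m = m' → K.rank j m % K.P.md (Sum.inr (t, m)) =
      K.rank j' m % K.P.md (Sum.inr (t, m))) : j = j' ∧ m = m' := by
  have hm : m = m' := congrArg Sigma.fst h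
  subst hm
  simp only [child, Sigma.mk.injEq, heq_eq_eq, true_and, Prod.mk.injEq, Fin.mk.injEq] at h
  have hb := hpp h.1 rfl
  refine ⟨K.rank_inj hb ?_, rfl⟩
  have hlt : ∀ j : K.Piece, K.rank j m / K.P.md (Sum.inr (t, m)) < K.nq t m := fun j => by
    refine Nat.lt_succ_of_le (Nat.div_le_div_right ?_)
    exact le_trans (Fin.isLt _).le (hfib _ _)
  have h2 := h.2
  rw [Nat.mod_eq_of_lt (hlt j), Nat.mod_eq_of_lt (hlt j')] at h2
  rw [← Nat.div_add_mod (K.rank j m) (K.P.md (Sum.inr (t, m))), h2, hres rfl, Nat.div_add_mod]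

/-- Intervals of the lower blocks are disjoint on the whole circle. -/
lemma disjoint_low {j j' : K.Piece} {m m' : K.Vec} {x x' a : ℕ} (hx : x ∈ K.comb j m)
    (hx' : x' ∈ K.comb j' m') (hb : K.blk j m < K.H) (h1 : x ≤ a) (h2 : a < x + K.n m)
    (h1' : x' ≤ a) (h2' : a < x' + K.n m') : j = j' ∧ m = m' ∧ x = x' := by
  obtain ⟨-, hm1⟩ := K.comb_mod hx
  obtain ⟨-, hm1'⟩ := K.comb_mod hx'
  obtain ⟨δ, rfl⟩ := Nat.exists_eq_add_of_le h1
  obtain ⟨δ', hδ'⟩ := Nat.exists_eq_add_of_le h1'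
  have hδ : δ < K.n m := by omega
  have hδ'' : δ' < K.n m' := by omega
  obtain ⟨-, -, h3⟩ := block_bound (K.bp_lt j m) (K.bp_fit j m)
  obtain ⟨-, -, h3'⟩ := block_bound (K.bp_lt j' m') (K.bp_fit j' m')
  have e1 : (x + δ) % K.R = K.bp j m + δ := by
    have : K.bp j m + K.n m ≤ K.R := h3
    rw [Nat.add_mod, hm1, Nat.add_mod_mod, Nat.mod_eq_of_lt (show K.bp j m + δ < K.R by omega)]
  have e2 : (x' + δ') % K.R = K.bp j' m' + δ' := by
    have : K.bp j' m' + K.n m' ≤ K.R := h3'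
    rw [Nat.add_mod, hm1', Nat.add_mod_mod, Nat.mod_eq_of_lt (show K.bp j' m' + δ' < K.R by omega)]
  rw [hδ'] at e1
  rw [e2] at e1
  have hblk : K.blk j' m' = K.blk j m := by
    rw [blk, blk, ← div_eq_of_in_block (K.bp_fit j' m') hδ'', e1,
      div_eq_of_in_block (K.bp_fit j m) hδ]
  have hb' : K.blk j' m' < K.H := hblk ▸ hb
  set t : Fin K.H := ⟨K.blk j m, hb⟩ with ht
  have ht' : (⟨K.blk j' m', hb'⟩ : Fin K.H) = t := Fin.ext hblk
  have hP := K.lo_P hb
  have hP' := K.lo_P hb'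
  rw [ht'] at hP'
  have hO := (mem_filter.1 hx).2
  have hO' := (mem_filter.1 hx').2
  have hxx : (x : ℤ) - K.bp j m = x' - K.bp j' m' := by omega
  have hslot : K.slot j m = t := Fin.ext (by simp only [slot, K.rep_of_lt hb, ht])
  have hslot' : K.slot j' m' = t := Fin.ext (by simp only [slot, K.rep_of_lt hb', ht, hblk])
  have hcode : K.code t (K.child j m t) = K.code t (K.child j' m' t) := by
    have a1 := ((K.O_dvd j m).2.1.trans hO)
    have a2 := ((K.O_dvd j' m').2.1.trans hO')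
    simp only [mP, hslot, hslot'] at a1 a2
    have a3 := (a1.add hP).sub (a2.add hP')
    have a4 : (K.P.md (Sum.inl t) : ℤ) ∣
        (K.code t (K.child j' m' t) : ℤ) - (K.code t (K.child j m t) : ℤ) := by
      have e : ((x : ℤ) - K.lo j m + (K.lo j m - K.bp j m - K.code t (K.child j m t))) -
          ((x' : ℤ) - K.lo j' m' + (K.lo j' m' - K.bp j' m' - K.code t (K.child j' m' t))) =
          (K.code t (K.child j' m' t) : ℤ) - (K.code t (K.child j m t) : ℤ) := by linarith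
      rw [← e]; exact a3
    have l1 := K.code_lt t (K.child j m t)
    have l2 := K.code_lt t (K.child j' m' t)
    have h0 := Int.eq_zero_of_abs_lt_dvd a4 (abs_lt.2 ⟨by omega, by omega⟩)
    omega
  have hchild : K.child j m t = K.child j' m' t :=
    (Fintype.equivFin (K.Child t)).injective (Fin.ext hcode)
  have hbp : K.bp j m % K.n m = K.bp j' m' % K.n m' → m = m' → K.bp j m = K.bp j' m' := by
    intro h hm
    subst hm
    have h0 : δ' % K.n m = δ % K.n m := Nat.ModEq.add_left_cancel h.symm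
      (show K.bp j' m + δ' ≡ K.bp j m + δ [MOD K.n m] by rw [e1])
    rw [Nat.mod_eq_of_lt hδ'', Nat.mod_eq_of_lt hδ] at h0
    omega
  obtain ⟨hjj, hmm⟩ := K.child_inj hfib hchild hbp fun hm => by
    subst hm
    have q1 := (K.O_dvd j m).2.2.trans hO
    have q2 := (K.O_dvd j' m).2.2.trans hO'
    simp only [mQ, hslot, hslot', K.rep_of_lt hb, K.rep_of_lt hb'] at q1 q2
    have r1 := K.lo_Q hb
    have r2 := K.lo_Q hb'
    rw [ht'] at r2
    have a1 := q1.add r1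
    have a2 := q2.add r2
    have a4 : (K.P.md (Sum.inr (t, m)) : ℤ) ∣
        ((K.rank j' m % K.P.md (Sum.inr (t, m)) : ℕ) : ℤ) -
          ((K.rank j m % K.P.md (Sum.inr (t, m)) : ℕ) : ℤ) := by
      have e : ((x : ℤ) - K.lo j m +
          (K.lo j m - K.bp j m - (K.rank j m % K.P.md (Sum.inr (t, m)) : ℕ))) -
          ((x' : ℤ) - K.lo j' m +
          (K.lo j' m - K.bp j' m - (K.rank j' m % K.P.md (Sum.inr (t, m)) : ℕ))) =
          ((K.rank j' m % K.P.md (Sum.inr (t, m)) : ℕ) : ℤ) -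
            ((K.rank j m % K.P.md (Sum.inr (t, m)) : ℕ) : ℤ) := by linarith
      rw [← e]; exact a1.sub a2
    have l1 := Nat.mod_lt (K.rank j m) (K.md_pos (Sum.inr (t, m)))
    have l2 := Nat.mod_lt (K.rank j' m) (K.md_pos (Sum.inr (t, m)))
    have h0 := Int.eq_zero_of_abs_lt_dvd a4 (abs_lt.2 ⟨by omega, by omega⟩)
    omega
  refine ⟨hjj, hmm, ?_⟩
  subst hjj hmm
  omega

/-- Intervals in the lower half circle are disjoint. -/
lemma disjoint_half {j j' : K.Piece} {p p' : K.Vec × ℕ} {a : ℕ} (hp : p ∈ K.items j)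
    (hp' : p' ∈ K.items j') (h1 : p.2 ≤ a) (h2 : a < p.2 + K.n p.1) (h1' : p'.2 ≤ a)
    (h2' : a < p'.2 + K.n p'.1) : j = j' ∧ p = p' := by
  rcases Nat.lt_or_ge (K.blk j p.1) K.H with hb | hb
  · obtain ⟨hjj, hmm, hxx⟩ := K.disjoint_low hfib ((K.mem_items).1 hp) ((K.mem_items).1 hp') hb h1
      h2 h1' h2'
    exact ⟨hjj, Prod.ext hmm hxx⟩
  · have hq := K.mirror_mem hp
    have hq' := K.mirror_mem hp'
    have e := K.comb_end ((K.mem_items).1 hp)
    have e' := K.comb_end ((K.mem_items).1 hp')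
    have hbn := K.blk_neg_add j p.1
    obtain ⟨hjj, hmm, hxx⟩ := K.disjoint_low hfib (a := K.L - 1 - a) ((K.mem_items).1 hq)
      ((K.mem_items).1 hq') (show K.blk j (K.neg p.1) < K.H by omega)
      (show K.L - p.2 - K.n p.1 ≤ K.L - 1 - a by omega)
      (by simp only [mirror, K.n_neg]; omega)
      (show K.L - p'.2 - K.n p'.1 ≤ K.L - 1 - a by omega)
      (by simp only [mirror, K.n_neg]; omega)
    refine ⟨hjj, ?_⟩
    subst hjj
    rw [← K.mirror_mirror hp, ← K.mirror_mirror hp', Prod.ext hmm hxx]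

end Cfg

end Vale.Agent.P110.UF.Pack
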