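import Vale.Agent.P110.UF.Defs

/-!
# P110: frozen definitions for the packing module

`quadDFT L A G` is the finite Fourier transform modulo `L` of `k ↦ e((A k² + G k) / L)`.
-/

open Finset

namespace Vale.Agent.P110.UF.Pack

/-- Fourier coefficient number `a` modulo `L` of the quadratic phase. -/
noncomputable def quadDFT (L : ℕ) (A G a : ℤ) : ℂ :=
  (1 / (L : ℂ)) * ∑ k ∈ range L, ex (((A * (k : ℤ) ^ 2 + (G - a) * k : ℤ) : ℝ) / L)

/-- What the packing needs from quadratic phases. -/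
structure QuadFacts (L : ℕ) : Prop where
  inversion : ∀ A G k : ℤ,
    ∑ a ∈ range L, quadDFT L A G a * ex (((a : ℤ) * k : ℤ) / L) =
      ex (((A * k ^ 2 + G * k : ℤ) : ℝ) / L)
  conjugate : ∀ A G a : ℤ, quadDFT L (-A) (-G) (-a) = (starRingEnd ℂ) (quadDFT L A G a)
  congr : ∀ A G a a' : ℤ, (L : ℤ) ∣ a - a' → quadDFT L A G a = quadDFT L A G a'
  energy : ∀ A G : ℤ, ∑ a ∈ range L, ‖quadDFT L A G a‖ ^ 2 = 1
  flat : ∀ (O γ : ℕ) (α G a : ℤ), L = O * γ → Odd γ → IsCoprime α (γ : ℤ) →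
    ‖quadDFT L (O * α) G a‖ ^ 2 = if (O : ℤ) ∣ G - a then (O : ℝ) / L else 0

/-- All facts hold for every positive modulus. -/
def QuadStmt : Prop := ∀ L : ℕ, 0 < L → QuadFacts L

end Vale.Agent.P110.UF.Pack
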