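import Mathlib
import Vale.Agent.P110.UF.Pack.Defs

/-!
# P110: combinatorial and arithmetic facts for the packing

Residue counting, folding a conjugation symmetric sum, an integer Chinese remainder
theorem and the shape of the leading coefficient of a glued quadratic phase.
-/

open Finset
open scoped ComplexConjugate

namespace Vale.Agent.P110.UF.Pack

/-- Exactly `γ` elements of `range (O * γ)` lie in a given residue class modulo `O`. -/
theorem residue_card (O γ : ℕ) (hO : 0 < O) (r : ℤ) :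
    #((range (O * γ)).filter fun x : ℕ => (O : ℤ) ∣ (x : ℤ) - r) = γ := by
  have hO' : (O : ℤ) ≠ 0 := Int.natCast_ne_zero.2 hO.ne'
  obtain ⟨r0, hr0⟩ : ∃ r0 : ℕ, (r0 : ℤ) = r % (O : ℤ) :=
    ⟨(r % (O : ℤ)).toNat, Int.toNat_of_nonneg (Int.emod_nonneg _ hO')⟩
  have hlt : r0 < O := by
    have := Int.emod_lt_of_pos r (by exact_mod_cast hO : (0 : ℤ) < O)
    omega
  have hset : ((range (O * γ)).filter fun x : ℕ => (O : ℤ) ∣ (x : ℤ) - r) =
      (range γ).image (fun i => r0 + O * i) := by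
    ext x
    simp only [mem_filter, mem_range, mem_image]
    constructor
    · rintro ⟨hx, hd⟩
      refine ⟨x / O, Nat.div_lt_of_lt_mul hx, ?_⟩
      have h1 : (x : ℤ) % (O : ℤ) = r % (O : ℤ) :=
        Int.emod_eq_emod_iff_emod_sub_eq_zero.2 (Int.emod_eq_zero_of_dvd hd)
      have h2 : x % O = r0 := by
        rw [← hr0] at h1
        exact_mod_cast h1
      rw [← h2]
      exact Nat.mod_add_div x O
    · rintro ⟨i, hi, rfl⟩
      refine ⟨?_, ⟨(i : ℤ) - r / (O : ℤ), ?_⟩⟩
      · calc r0 + O * i < O + O * i := Nat.add_lt_add_right hlt _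
          _ = O * (i + 1) := by ring
          _ ≤ O * γ := Nat.mul_le_mul_left _ hi
      · push_cast
        rw [hr0, Int.emod_def]
        ring
  rw [hset, card_image_of_injective _ ?_, card_range]
  intro i j hij
  exact Nat.eq_of_mul_eq_mul_left hO (Nat.add_left_cancel hij)

/-- A sum over a set with a conjugating involution is twice the real part of half of it. -/
theorem sum_fold {ι : Type*} (T : Finset ι) (g : ι → ι) (low : ι → Prop) [DecidablePred low]
    (f : ι → ℂ) (hm : ∀ x ∈ T, g x ∈ T) (hg : ∀ x ∈ T, g (g x) = x)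
    (hl : ∀ x ∈ T, (low (g x) ↔ ¬ low x)) (hf : ∀ x ∈ T, f (g x) = (starRingEnd ℂ) (f x)) :
    ∑ x ∈ T, f x = ((2 * (∑ x ∈ T.filter low, f x).re : ℝ) : ℂ) := by
  have hconj : ∑ x ∈ T.filter (fun x => ¬ low x), f x =
      conj (∑ x ∈ T.filter low, f x) := by
    rw [map_sum]
    refine sum_nbij' g g ?_ ?_ ?_ ?_ ?_
    · intro x hx
      obtain ⟨h1, h2⟩ := mem_filter.1 hx
      exact mem_filter.2 ⟨hm x h1, (hl x h1).2 h2⟩
    · intro x hx
      obtain ⟨h1, h2⟩ := mem_filter.1 hx
      exact mem_filter.2 ⟨hm x h1, fun h => (hl x h1).1 h h2⟩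
    · intro x hx
      exact hg x (mem_filter.1 hx).1
    · intro x hx
      exact hg x (mem_filter.1 hx).1
    · intro x hx
      rw [hf x (mem_filter.1 hx).1, Complex.conj_conj]
  rw [← sum_filter_add_sum_filter_not T low, hconj, Complex.add_conj]

/-- Chinese remainder theorem over the integers. -/
theorem crt_int {κ : Type*} [Fintype κ] (md : κ → ℕ)
    (hc : ∀ q r, q ≠ r → Nat.Coprime (md q) (md r)) (R : ℕ) (hR : ∀ q, Nat.Coprime (md q) R)
    (w : ℤ) (val : κ → ℤ) : ∃ G : ℤ, (R : ℤ) ∣ G - w ∧ ∀ q, (md q : ℤ) ∣ G - val q := by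
  classical
  suffices h : ∀ S : Finset κ, ∃ G : ℤ, (R : ℤ) ∣ G - w ∧ ∀ q ∈ S, (md q : ℤ) ∣ G - val q by
    obtain ⟨G, h1, h2⟩ := h univ
    exact ⟨G, h1, fun q => h2 q (mem_univ q)⟩
  intro S
  induction S using Finset.induction_on with
  | empty => exact ⟨w, by simp, by simp⟩
  | @insert a s ha ih =>
    obtain ⟨G, h1, h2⟩ := ih
    set M : ℤ := (R : ℤ) * ∏ q ∈ s, (md q : ℤ) with hMdef
    have hcop : IsCoprime M (md a : ℤ) := by
      refine IsCoprime.mul_left ((hR a).symm.isCoprime) (IsCoprime.prod_left ?_)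
      intro q hq
      exact (hc q a (fun e => ha (e ▸ hq))).isCoprime
    obtain ⟨u, v, huv⟩ := hcop
    refine ⟨G + u * M * (val a - G), ?_, ?_⟩
    · rw [add_sub_right_comm]
      exact dvd_add h1 (((dvd_mul_right _ _).mul_left u).mul_right _)
    · intro q hq
      rcases mem_insert.1 hq with rfl | hq'
      · exact ⟨v * (G - val q), by linear_combination (G - val q) * (-huv)⟩
      · rw [add_sub_right_comm]
        have hd : (md q : ℤ) ∣ M := (dvd_prod_of_mem (fun q => (md q : ℤ)) hq').mul_left _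
        exact dvd_add (h2 q hq') ((hd.mul_left u).mul_right _)

/-- The glued leading coefficient is `∏ own` times a unit modulo the other moduli. -/
theorem alpha_spec {κ : Type*} [DecidableEq κ] (U own : Finset κ) (md : κ → ℕ)
    (hc : ∀ q ∈ U, ∀ r ∈ U, q ≠ r → Nat.Coprime (md q) (md r)) (hsub : own ⊆ U)
    (a : κ → ℤ) (ha : ∀ q ∈ own, a q = 0)
    (hu : ∀ q ∈ U, q ∉ own → IsCoprime (a q) (md q : ℤ)) :
    ∃ α : ℤ, (∑ q ∈ U, a q * ∏ r ∈ U.erase q, (md r : ℤ)) =
        ((∏ q ∈ own, md q : ℕ) : ℤ) * α ∧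
      IsCoprime α ((∏ q ∈ U \ own, md q : ℕ) : ℤ) := by
  refine ⟨∑ q ∈ U \ own, a q * ∏ r ∈ (U \ own).erase q, (md r : ℤ), ?_, ?_⟩
  · rw [← sum_subset (sdiff_subset (s := U) (t := own))
      (fun q hq hnq => by
        rw [ha q (by_contra fun h => hnq (mem_sdiff.2 ⟨hq, h⟩)), zero_mul]), mul_sum]
    refine sum_congr rfl fun q hq => ?_
    have hq' := (mem_sdiff.1 hq).2
    have hU : U.erase q = own ∪ (U \ own).erase q := by
      rw [← erase_eq_of_notMem hq', ← erase_union_distrib, erase_eq_of_notMem hq',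
        union_sdiff_of_subset hsub]
    rw [hU, prod_union ((disjoint_sdiff).mono_right (erase_subset _ _))]
    push_cast
    ring
  · push_cast
    refine IsCoprime.prod_right ?_
    intro r hr
    obtain ⟨hrU, hro⟩ := mem_sdiff.1 hr
    rw [← add_sum_erase _ _ hr]
    obtain ⟨c, hc'⟩ : (md r : ℤ) ∣
        ∑ q ∈ (U \ own).erase r, a q * ∏ x ∈ (U \ own).erase q, (md x : ℤ) := by
      refine dvd_sum fun q hq => Dvd.dvd.mul_left ?_ _
      exact dvd_prod_of_mem (fun x => (md x : ℤ))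
        (mem_erase.2 ⟨fun e => (mem_erase.1 hq).1 e.symm, hr⟩)
    rw [hc']
    refine IsCoprime.add_mul_left_left ?_ c
    refine IsCoprime.mul_left (hu r hrU hro) (IsCoprime.prod_left ?_)
    intro q hq
    obtain ⟨hne, hqd⟩ := mem_erase.1 hq
    exact (hc q (mem_sdiff.1 hqd).1 r hrU hne).isCoprime

end Vale.Agent.P110.UF.Pack
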