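import Vale.Agent.P110.UF.Pack.Position
import Vale.Agent.P110.UF.Pack.Comb

/-!
# P110: pieces, residues and intervals of the packing
-/

open Finset
open scoped Classical

namespace Vale.Agent.P110.UF.Pack

/-- The data of a packing. -/
structure Cfg where
  d : ℕ
  S : Finset (Fin d → ℤ)
  c : (Fin d → ℤ) → ℂ
  V : Vectors S
  B : ℕ
  H : ℕ
  κ : ℝ
  D : ℕ
  d_pos : 0 < d
  B_pos : 0 < B
  H_pos : 0 < H
  nz : ∀ m ∈ S, m ≠ 0
  neg_mem : ∀ m ∈ S, -m ∈ S
  conj_c : ∀ m ∈ S, c (-m) = (starRingEnd ℂ) (c m)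
  c_ne : ∀ m ∈ S, c m ≠ 0
  energy : ∑ m ∈ S, ‖c m‖ ^ 2 ≤ 1
  kpos : 0 < κ
  ksmall : κ ≤ 1 / 4
  dvd_v : ∀ m ∈ S, (dot V.v m).natAbs ∣ D
  dvd_perp : ∀ m ∈ S, ∀ m' ∈ S, m' ≠ m → m' ≠ -m → (dot (V.perp m) m').natAbs ∣ D
  P : Params (fun m : S => swp V.v m) (fun m : S => ‖c m‖ ^ 2) κ d D B H

namespace Cfg

variable (K : Cfg)

/-- The period of the positions. -/
abbrev R : ℕ := 2 * K.H * K.B

lemma R_pos : 0 < K.R := Nat.mul_pos (Nat.mul_pos two_pos K.H_pos) K.B_pos

instance : NeZero K.R := ⟨K.R_pos.ne'⟩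

/-- A frequency vector. -/
abbrev Vec := {m // m ∈ K.S}

/-- The opposite vector. -/
def neg (m : K.Vec) : K.Vec := ⟨-m.1, K.neg_mem _ m.2⟩

lemma neg_neg (m : K.Vec) : K.neg (K.neg m) = m := Subtype.ext (_root_.neg_neg _)

lemma neg_ne (m : K.Vec) : K.neg m ≠ m := fun e =>
  neg_ne_self (K.nz _ m.2) (congrArg Subtype.val e)

/-- The pieces. -/
abbrev Piece := {x : (Fin K.d → ZMod K.R) × Fin K.P.mu // Good K.B K.H K.S K.V.v x.1}

/-- Sweep length. -/
def n (m : K.Vec) : ℕ := swp K.V.v m.1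

/-- Shift between lower end and start. -/
def sh (m : K.Vec) : ℕ := shiftOf K.V.v m.1

lemma n_pos (m : K.Vec) : 0 < K.n m := swp_pos (K.V.v_ne _ m.2)

lemma n_neg (m : K.Vec) : K.n (K.neg m) = K.n m := swp_neg _ _

lemma sh_add (m : K.Vec) : K.sh m + K.sh (K.neg m) = K.n m :=
  shift_add_shift_neg (K.V.v_ne _ m.2)

/-- Position. -/
noncomputable def bp (j : K.Piece) (m : K.Vec) : ℕ := pos K.R K.V.v m.1 j.1.1

/-- Block. -/
noncomputable def blk (j : K.Piece) (m : K.Vec) : ℕ := K.bp j m / K.B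

lemma bp_fit (j : K.Piece) (m : K.Vec) : K.bp j m % K.B + K.n m ≤ K.B := j.2.1 _ m.2

lemma bp_lt (j : K.Piece) (m : K.Vec) : K.bp j m < K.R := pos_lt _ _

lemma blk_lt (j : K.Piece) (m : K.Vec) : K.blk j m < 2 * K.H :=
  (block_bound (K.bp_lt j m) (K.bp_fit j m)).1

lemma blk_inj (j : K.Piece) {m m' : K.Vec} (h : K.blk j m = K.blk j m') : m = m' :=
  Subtype.ext (j.2.2 m.2 m'.2 h)

lemma bp_neg (j : K.Piece) (m : K.Vec) : K.bp j (K.neg m) + K.bp j m + K.n m = K.R :=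
  pos_neg j.2 m.2 (K.V.v_ne _ m.2)

lemma blk_neg_add (j : K.Piece) (m : K.Vec) : K.blk j (K.neg m) + K.blk j m + 1 = 2 * K.H :=
  blk_neg j.2 m.2 (K.V.v_ne _ m.2)

/-- The representative in a lower block. -/
noncomputable def rep (j : K.Piece) (m : K.Vec) : K.Vec := if K.blk j m < K.H then m else K.neg m

lemma rep_lt (j : K.Piece) (m : K.Vec) : K.blk j (K.rep j m) < K.H := by
  have := K.blk_neg_add j m
  unfold rep
  split_ifs with h
  · exact h
  · omega

lemma rep_of_lt {j : K.Piece} {m : K.Vec} (h : K.blk j m < K.H) : K.rep j m = m := if_pos h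

lemma rep_eq (j : K.Piece) (m : K.Vec) : K.rep j m = m ∨ K.rep j m = K.neg m := by
  unfold rep; split_ifs <;> simp

lemma rep_neg (j : K.Piece) (m : K.Vec) : K.rep j (K.neg m) = K.rep j m := by
  have := K.blk_neg_add j m
  unfold rep
  split_ifs <;> first | rfl | (exfalso; omega) | exact K.neg_neg m

lemma n_rep (j : K.Piece) (m : K.Vec) : K.n (K.rep j m) = K.n m := by
  rcases K.rep_eq j m with h | h <;> rw [h]
  exact K.n_neg m

/-- Index of a modulus. -/
abbrev Ix := Fin K.H ⊕ (Fin K.H × K.Vec)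

/-- The lower block of a vector. -/
noncomputable def slot (j : K.Piece) (m : K.Vec) : Fin K.H := ⟨K.blk j (K.rep j m), K.rep_lt j m⟩

/-- The two moduli owned by a vector. -/
noncomputable def own (j : K.Piece) (m : K.Vec) : Finset K.Ix :=
  {Sum.inl (K.slot j m), Sum.inr (K.slot j m, K.rep j m)}

lemma own_neg (j : K.Piece) (m : K.Vec) : K.own j (K.neg m) = K.own j m := by
  simp only [own, slot, K.rep_neg]

/-- Block modulus. -/
noncomputable def mP (j : K.Piece) (m : K.Vec) : ℕ := K.P.md (Sum.inl (K.slot j m))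

/-- Vector modulus. -/
noncomputable def mQ (j : K.Piece) (m : K.Vec) : ℕ :=
  K.P.md (Sum.inr (K.slot j m, K.rep j m))

lemma prod_own (j : K.Piece) (m : K.Vec) : ∏ q ∈ K.own j m, K.P.md q = K.mP j m * K.mQ j m :=
  prod_pair Sum.inl_ne_inr

/-- The spacing of the comb of a vector. -/
noncomputable def O (j : K.Piece) (m : K.Vec) : ℕ := K.R * (K.mP j m * K.mQ j m)

lemma md_pos (q : K.Ix) : 0 < K.P.md q := (K.P.md_odd q).pos

lemma O_pos (j : K.Piece) (m : K.Vec) : 0 < K.O j m :=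
  Nat.mul_pos K.R_pos (Nat.mul_pos (K.md_pos _) (K.md_pos _))

lemma O_neg (j : K.Piece) (m : K.Vec) : K.O j (K.neg m) = K.O j m := by
  simp only [O, mP, mQ, slot, K.rep_neg]

/-- The quadratic coefficient vector of one modulus. -/
noncomputable def avec (j : K.Piece) : K.Ix → Fin K.d → ℤ
  | .inl t => if h : ∃ m, K.blk j m = t then K.V.perp h.choose.1 else K.V.v
  | .inr (t, m) => if K.blk j m = t then K.V.perp m.1 else K.V.v

lemma perp_rep (j : K.Piece) (m : K.Vec) : dot (K.V.perp (K.rep j m).1) m.1 = 0 := by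
  have h := K.V.perp_self _ (K.rep j m).2
  rcases K.rep_eq j m with e | e <;> rw [e] at h ⊢
  · exact h
  · rw [show (K.neg m).1 = -m.1 from rfl, dot_neg_right] at h
    exact neg_eq_zero.1 h

lemma avec_own (j : K.Piece) (m : K.Vec) {q : K.Ix} (hq : q ∈ K.own j m) :
    dot (K.avec j q) m.1 = 0 := by
  simp only [own, mem_insert, mem_singleton] at hq
  rcases hq with rfl | rfl
  · have h : ∃ m', K.blk j m' = ((K.slot j m : Fin K.H) : ℕ) := ⟨_, rfl⟩
    simp only [avec, dif_pos h]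
    rw [K.blk_inj j (h.choose_spec.trans rfl : K.blk j h.choose = K.blk j (K.rep j m))]
    exact K.perp_rep j m
  · simp only [avec, slot, if_true]
    exact K.perp_rep j m

lemma avec_coprime (j : K.Piece) (m : K.Vec) {q : K.Ix} (hq : q ∉ K.own j m) :
    IsCoprime (dot (K.avec j q) m.1) (K.P.md q : ℤ) := by
  have main : ∀ x : ℤ, x.natAbs ∣ K.D → IsCoprime x (K.P.md q : ℤ) := by
    intro x hx
    rw [Int.isCoprime_iff_nat_coprime, Int.natAbs_natCast]
    exact Nat.Coprime.coprime_dvd_left hx (K.P.md_D q).symm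
  have hperp : ∀ m0 : K.Vec, K.blk j m0 < K.H → K.rep j m ≠ m0 →
      (dot (K.V.perp m0.1) m.1).natAbs ∣ K.D := by
    intro m0 hlt hne
    refine K.dvd_perp _ m0.2 _ m.2 (fun e => hne ?_) fun e => hne ?_
    · obtain rfl : m = m0 := Subtype.ext e
      exact K.rep_of_lt hlt
    · obtain rfl : m = K.neg m0 := Subtype.ext e
      rw [K.rep_neg]
      exact K.rep_of_lt hlt
  simp only [own, mem_insert, mem_singleton, not_or] at hq
  rcases q with t | ⟨t, m0⟩
  · simp only [avec]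
    split_ifs with h
    · refine main _ (hperp _ (by rw [h.choose_spec]; exact t.isLt) fun e => hq.1 ?_)
      refine congrArg Sum.inl (Fin.ext ?_)
      rw [← h.choose_spec, ← e]
      rfl
    · exact main _ (K.dvd_v _ m.2)
  · simp only [avec]
    split_ifs with h
    · refine main _ (hperp _ (by rw [h]; exact t.isLt) fun e => hq.2 ?_)
      refine congrArg Sum.inr (Prod.ext (Fin.ext ?_) e.symm)
      rw [← h, ← e]
      rfl
    · exact main _ (K.dvd_v _ m.2)

/-- The vector of quadratic coefficients. -/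
noncomputable def Avec (j : K.Piece) (i : Fin K.d) : ℤ :=
  K.R * ∑ q, K.avec j q i * ∏ r ∈ univ.erase q, (K.P.md r : ℤ)

lemma dot_Avec (j : K.Piece) (m : K.Vec) :
    dot (K.Avec j) m.1 = K.R * ∑ q, dot (K.avec j q) m.1 * ∏ r ∈ univ.erase q, (K.P.md r : ℤ) := by
  simp only [dot, Avec, mul_assoc, ← mul_sum, sum_mul]
  rw [sum_comm]
  exact congrArg _ (sum_congr rfl fun q _ => sum_congr rfl fun i _ => by ring)

/-- The number of cells of the circle. -/
def L : ℕ := K.R * ∏ q, K.P.md q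

lemma L_pos : 0 < K.L := Nat.mul_pos K.R_pos (prod_pos fun q _ => K.md_pos q)

lemma L_even : 2 ∣ K.L := Dvd.dvd.mul_right (Dvd.dvd.mul_right (dvd_mul_right 2 K.H) K.B) _

/-- The number of teeth. -/
noncomputable def teeth (j : K.Piece) (m : K.Vec) : ℕ := ∏ q ∈ univ \ K.own j m, K.P.md q

lemma L_eq (j : K.Piece) (m : K.Vec) : K.L = K.O j m * K.teeth j m := by
  rw [L, O, teeth, ← K.prod_own, mul_assoc K.R, ← prod_sdiff (subset_univ (K.own j m))]
  exact congrArg _ (mul_comm _ _)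

lemma teeth_odd (j : K.Piece) (m : K.Vec) : Odd (K.teeth j m) :=
  Finset.prod_induction _ Odd (fun _ _ ha hb => ha.mul hb) odd_one fun q _ => K.P.md_odd q

lemma alpha (j : K.Piece) (m : K.Vec) : ∃ α : ℤ,
    dot (K.Avec j) m.1 = (K.O j m : ℤ) * α ∧ IsCoprime α (K.teeth j m : ℤ) := by
  obtain ⟨α, h1, h2⟩ := alpha_spec (univ : Finset K.Ix) (K.own j m) K.P.md
    (fun q _ r _ h => K.P.md_cop q r h) (subset_univ _) (fun q => dot (K.avec j q) m.1)
    (fun q hq => K.avec_own j m hq) (fun q _ hq => K.avec_coprime j m hq)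
  refine ⟨α, ?_, by convert h2; rfl⟩
  rw [dot_Avec]
  convert congrArg ((K.R : ℤ) * ·) h1 using 1
  rw [← mul_assoc, ← Nat.cast_mul]
  congr 1
  rw [O, K.prod_own]

/-- Pieces per residue. -/
def K1 : ℕ := K.P.mu * K.R ^ (K.d - 1)

/-- All pieces counted with multiplicity. -/
def J0 : ℕ := K.P.mu * K.R ^ K.d

lemma J0_eq : K.J0 = K.K1 * K.R := by
  rw [J0, K1, mul_assoc, ← pow_succ, Nat.sub_add_cancel K.d_pos]

lemma J0_pos : 0 < K.J0 := Nat.mul_pos K.P.mu_pos (pow_pos K.R_pos _)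

/-- The pieces with a given position of `m`. -/
noncomputable def fib (m : K.Vec) (p : ℕ) : Finset K.Piece := univ.filter fun j => K.bp j m = p

/-- The rank of a piece among those with the same position. -/
noncomputable def rank (j : K.Piece) (m : K.Vec) : ℕ :=
  ((K.fib m (K.bp j m)).equivFin ⟨j, mem_filter.2 ⟨mem_univ _, rfl⟩⟩ : ℕ)

lemma rank_inj {j j' : K.Piece} {m : K.Vec} (hb : K.bp j m = K.bp j' m)
    (h : K.rank j m = K.rank j' m) : j = j' := by
  have key : ∀ (p : ℕ) (hj : j ∈ K.fib m p) (hj' : j' ∈ K.fib m p),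
      ((K.fib m p).equivFin ⟨j, hj⟩ : ℕ) = ((K.fib m p).equivFin ⟨j', hj'⟩ : ℕ) → j = j' :=
    fun p hj hj' e => congrArg Subtype.val ((K.fib m p).equivFin.injective (Fin.ext e))
  refine key (K.bp j m) (mem_filter.2 ⟨mem_univ _, rfl⟩) (mem_filter.2 ⟨mem_univ _, hb.symm⟩) ?_
  refine h.trans ?_
  have aux : ∀ (p p' : ℕ) (e : p = p') (hj : j' ∈ K.fib m p) (hj' : j' ∈ K.fib m p'),
      ((K.fib m p').equivFin ⟨j', hj'⟩ : ℕ) = ((K.fib m p).equivFin ⟨j', hj⟩ : ℕ) := by
    intro p p' e hj hj'; subst e; rfl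
  exact aux _ _ hb _ _

/-- Number of children of one class. -/
noncomputable def nq (t : Fin K.H) (m : K.Vec) : ℕ := K.K1 / K.P.md (Sum.inr (t, m)) + 1

/-- The children in one block. -/
abbrev Child (t : Fin K.H) := Σ m : K.Vec, Fin (K.n m) × Fin (K.nq t m)

/-- Residue of a child. -/
noncomputable def code (t : Fin K.H) (x : K.Child t) : ℕ := (Fintype.equivFin (K.Child t) x : ℕ)

/-- The child of a vector in a lower block. -/
noncomputable def child (j : K.Piece) (m : K.Vec) (t : Fin K.H) : K.Child t :=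
  ⟨m, ⟨K.bp j m % K.n m, Nat.mod_lt _ (K.n_pos m)⟩,
    ⟨(K.rank j m / K.P.md (Sum.inr (t, m))) % K.nq t m, Nat.mod_lt _ (Nat.succ_pos _)⟩⟩

/-- The prescribed values of the linear coefficient on the moduli. -/
noncomputable def val (j : K.Piece) (i : Fin K.d) : K.Ix → ℤ
  | .inl t =>
      if h : ∃ m, K.blk j m = t then
        K.V.z h.choose.1 i *
          ((K.bp j h.choose + K.sh h.choose + K.code t (K.child j h.choose t) : ℕ) : ℤ)
      else 0
  | .inr (t, m) =>
      if K.blk j m = t then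
        K.V.z m.1 i * ((K.bp j m + K.sh m + K.rank j m % K.P.md (Sum.inr (t, m)) : ℕ) : ℤ)
      else 0

/-- The vector of linear coefficients. -/
noncomputable def Gvec (j : K.Piece) (i : Fin K.d) : ℤ :=
  (crt_int K.P.md K.P.md_cop K.R K.P.md_R ((j.1.1 i).val : ℤ) (K.val j i)).choose

lemma Gvec_spec (j : K.Piece) (i : Fin K.d) :
    (K.R : ℤ) ∣ K.Gvec j i - ((j.1.1 i).val : ℤ) ∧
      ∀ q, (K.P.md q : ℤ) ∣ K.Gvec j i - K.val j i q :=
  (crt_int K.P.md K.P.md_cop K.R K.P.md_R ((j.1.1 i).val : ℤ) (K.val j i)).choose_spec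

/-- The lower end of the teeth modulo the spacing. -/
noncomputable def lo (j : K.Piece) (m : K.Vec) : ℤ := dot (K.Gvec j) m.1 - K.sh m

lemma lo_R (j : K.Piece) (m : K.Vec) : (K.R : ℤ) ∣ K.lo j m - K.bp j m := by
  rw [← ZMod.intCast_zmod_eq_zero_iff_dvd]
  have h : ∀ i, ((K.Gvec j i : ℤ) : ZMod K.R) = j.1.1 i := by
    intro i
    have := (ZMod.intCast_zmod_eq_zero_iff_dvd _ _).2 (K.Gvec_spec j i).1
    rw [Int.cast_sub, sub_eq_zero, Int.cast_natCast, ZMod.natCast_zmod_val] at this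
    exact this
  simp only [lo, sh, bp, Int.cast_sub, Int.cast_natCast]
  rw [sub_sub, sub_eq_zero, add_comm, pos_cast]
  simp only [dot, lin, Int.cast_sum, Int.cast_mul, h]
  exact sum_congr rfl fun i _ => mul_comm _ _

lemma dvd_dot {q : ℕ} {z g m : Fin K.d → ℤ} {r : ℤ} (hz : dot z m = 1)
    (h : ∀ i, (q : ℤ) ∣ g i - z i * r) : (q : ℤ) ∣ dot g m - r := by
  have e : dot g m - r = ∑ i, (g i - z i * r) * m i := by
    have : ∑ i, z i * r * m i = r * dot z m := by
      rw [dot, mul_sum]; exact sum_congr rfl fun i _ => by ring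
    simp only [sub_mul, sum_sub_distrib, this, hz, mul_one]
    rfl
  rw [e]
  exact dvd_sum fun i _ => (h i).mul_right _

lemma lo_P {j : K.Piece} {m : K.Vec} (hm : K.blk j m < K.H) :
    (K.P.md (Sum.inl ⟨K.blk j m, hm⟩) : ℤ) ∣
      K.lo j m - K.bp j m - K.code ⟨K.blk j m, hm⟩ (K.child j m ⟨K.blk j m, hm⟩) := by
  have h : ∃ m', K.blk j m' = ((⟨K.blk j m, hm⟩ : Fin K.H) : ℕ) := ⟨m, rfl⟩
  have hc : h.choose = m := K.blk_inj j h.choose_spec
  have := K.dvd_dot (g := K.Gvec j) (K.V.z_one _ m.2)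
    (r := ((K.bp j m + K.sh m + K.code ⟨K.blk j m, hm⟩ (K.child j m ⟨K.blk j m, hm⟩) : ℕ) : ℤ))
    (q := K.P.md (Sum.inl ⟨K.blk j m, hm⟩)) fun i => by
      have := (K.Gvec_spec j i).2 (Sum.inl ⟨K.blk j m, hm⟩)
      simp only [val, dif_pos h] at this
      rwa [hc] at this
  convert this using 1
  simp only [lo]; push_cast; ring

lemma lo_Q {j : K.Piece} {m : K.Vec} (hm : K.blk j m < K.H) :
    (K.P.md (Sum.inr (⟨K.blk j m, hm⟩, m)) : ℤ) ∣
      K.lo j m - K.bp j m - (K.rank j m % K.P.md (Sum.inr (⟨K.blk j m, hm⟩, m)) : ℕ) := by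
  have := K.dvd_dot (g := K.Gvec j) (K.V.z_one _ m.2)
    (r := ((K.bp j m + K.sh m + K.rank j m % K.P.md (Sum.inr (⟨K.blk j m, hm⟩, m)) : ℕ) : ℤ))
    (q := K.P.md (Sum.inr (⟨K.blk j m, hm⟩, m))) fun i => by
      have := (K.Gvec_spec j i).2 (Sum.inr (⟨K.blk j m, hm⟩, m))
      simpa [val] using this
  convert this using 1
  simp only [lo]; push_cast; ring

lemma lo_neg (j : K.Piece) (m : K.Vec) : K.lo j (K.neg m) = -K.lo j m - K.n m := by
  have := K.sh_add m
  simp only [lo, show (K.neg m).1 = -m.1 from rfl, dot_neg_right]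
  omega

/-- The teeth of a vector. -/
noncomputable def comb (j : K.Piece) (m : K.Vec) : Finset ℕ :=
  (range K.L).filter fun x : ℕ => (K.O j m : ℤ) ∣ (x : ℤ) - K.lo j m

lemma card_comb (j : K.Piece) (m : K.Vec) : #(K.comb j m) = K.teeth j m := by
  rw [comb, K.L_eq j m]
  exact residue_card _ _ (K.O_pos j m) _

end Cfg

end Vale.Agent.P110.UF.Pack
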