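import Vale.Agent.P110.UF.Pack.Pieces

/-!
# P110: most pieces are good
-/

open Finset

namespace Vale.Agent.P110.UF.Pack

variable {d : ℕ}

lemma lin_add (R : ℕ) (m : Fin d → ℤ) (w w' : Fin d → ZMod R) :
    lin R m (w + w') = lin R m w + lin R m w' := by
  simp [lin, mul_add, sum_add_distrib]

lemma lin_sub_left (R : ℕ) (m m' : Fin d → ℤ) (w : Fin d → ZMod R) :
    lin R (m' - m) w = lin R m' w - lin R m w := by
  simp [lin, sub_mul, sum_sub_distrib]

/-- All fibres of a primitive form have the same size. -/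
theorem fibre_card {d R : ℕ} [NeZero R] (m : Fin d → ℤ) (hm : Finset.univ.gcd m = 1) (x : ZMod R) :
    #(univ.filter fun w : Fin d → ZMod R => lin R m w = x) * R = R ^ d := by
  obtain ⟨z, hz⟩ := Finset.gcd_eq_sum_mul (Finset.univ : Finset (Fin d)) m
  have hlin : ∀ y : ZMod R, lin R m (fun i => y * (z i : ZMod R)) = y := by
    intro y
    have h1 : (∑ i, (m i : ZMod R) * (z i : ZMod R)) = 1 := by
      have h := congrArg (fun n : ℤ => (n : ZMod R)) (hz.symm.trans hm)
      push_cast at h
      rw [← h]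
    calc lin R m (fun i => y * (z i : ZMod R))
        = ∑ i, y * ((m i : ZMod R) * (z i : ZMod R)) := sum_congr rfl fun i _ => by ring
      _ = y := by rw [← mul_sum, h1, mul_one]
  have hall : ∀ y : ZMod R, #(univ.filter fun w : Fin d → ZMod R => lin R m w = y) =
      #(univ.filter fun w : Fin d → ZMod R => lin R m w = x) := by
    intro y
    refine card_bij' (fun w _ => w + fun i => (x - y) * (z i : ZMod R))
      (fun w _ => w + fun i => (y - x) * (z i : ZMod R)) ?_ ?_ ?_ ?_
    · intro w hw
      simp only [mem_filter, mem_univ, true_and] at hw ⊢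
      rw [lin_add, hlin, hw]; ring
    · intro w hw
      simp only [mem_filter, mem_univ, true_and] at hw ⊢
      rw [lin_add, hlin, hw]; ring
    · intro w _
      funext i; simp only [Pi.add_apply]; ring
    · intro w _
      funext i; simp only [Pi.add_apply]; ring
  have h := card_eq_sum_card_fiberwise (s := (univ : Finset (Fin d → ZMod R)))
    (t := (univ : Finset (ZMod R))) (f := fun w => lin R m w) fun w _ => mem_univ _
  rw [sum_congr rfl fun y _ => hall y, sum_const, card_univ, card_univ, ZMod.card, Fintype.card_fun,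
    ZMod.card, Fintype.card_fin, smul_eq_mul] at h
  rw [mul_comm, ← h]

/-- A form with a small nonzero coordinate takes no value too often. -/
theorem set_card {d R : ℕ} [NeZero R] (D : Fin d → ℤ) (i : Fin d) (hD : D i ≠ 0)
    (X : Finset (ZMod R)) :
    #(univ.filter fun w : Fin d → ZMod R => lin R D w ∈ X) * R ≤
      #X * (D i).natAbs * R ^ d := by
  set a : ZMod R := (D i : ZMod R)
  have hker : #(univ.filter fun u : ZMod R => a * u = 0) ≤ (D i).natAbs := by
    have hsub : (univ.filter fun u : ZMod R => a * u = 0) ⊆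
        univ.filter fun u : ZMod R => ((D i).natAbs : ℕ) • u = 0 := by
      intro u hu
      simp only [mem_filter, mem_univ, true_and] at hu ⊢
      rw [nsmul_eq_mul]
      rcases Int.natAbs_eq (D i) with h | h
      · rw [show a = (((D i).natAbs : ℤ) : ZMod R) from congrArg _ h, Int.cast_natCast] at hu
        exact hu
      · rw [show a = ((-((D i).natAbs : ℤ) : ℤ) : ZMod R) from congrArg _ h, Int.cast_neg,
          Int.cast_natCast, neg_mul, neg_eq_zero] at hu
        exact hu
    exact (card_le_card hsub).trans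
      (IsAddCyclic.card_nsmul_eq_zero_le (Int.natAbs_pos.2 hD))
  have hline : ∀ c : ZMod R, #(univ.filter fun u : ZMod R => c + a * u ∈ X) ≤
      #X * (D i).natAbs := by
    intro c
    rw [mul_comm]
    refine card_le_mul_card_image_of_maps_to (f := fun u => c + a * u)
      (fun u hu => (mem_filter.1 hu).2) _ fun y _ => ?_
    by_cases hex : ∃ u₀, c + a * u₀ = y
    · obtain ⟨u₀, hu₀⟩ := hex
      refine le_trans (card_le_card_of_injOn (fun u => u - u₀) (fun u hu => ?_)
        (fun u _ u' _ h => sub_left_injective h)) hker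
      simp only [mem_coe, mem_filter, mem_univ, true_and] at hu ⊢
      rw [mul_sub, sub_eq_zero]
      exact add_left_cancel (hu.2.trans hu₀.symm)
    · rw [filter_false_of_mem fun u _ h => hex ⟨u, h⟩]
      simp
  have hcount : #(univ.filter fun w : Fin d → ZMod R => lin R D w ∈ X) * R =
      ∑ w : Fin d → ZMod R, #(univ.filter fun u : ZMod R =>
        lin R D (w + Pi.single i u) ∈ X) := by
    simp only [card_filter]
    have hshift : ∀ (f : (Fin d → ZMod R) → ℕ) (u : Fin d → ZMod R), ∑ w, f (w + u) = ∑ w, f w :=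
      fun f u => Equiv.sum_comp (Equiv.addRight u) f
    have hu := fun u : ZMod R =>
      hshift (fun w => if lin R D w ∈ X then 1 else 0) (Pi.single i u)
    beta_reduce at hu
    rw [sum_comm, sum_congr rfl fun u _ => hu u, sum_const, card_univ, ZMod.card,
      smul_eq_mul, mul_comm]
  rw [hcount]
  refine (sum_le_card_nsmul _ _ _ fun w _ => ?_).trans_eq (b := _) (by
    rw [card_univ, Fintype.card_fun, ZMod.card, Fintype.card_fin, smul_eq_mul, mul_comm])
  refine le_trans (le_of_eq ?_) (hline (lin R D w))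
  congr 1
  refine filter_congr fun u _ => ?_
  rw [lin_add, show lin R D (Pi.single i u) = a * u by
    simp [lin, Pi.single_apply, a]]

/-- Most pieces are good. -/
theorem good_card {d B H : ℕ} (hB : 0 < B) (hH : 0 < H) (S : Finset (Fin d → ℤ))
    (hS : ∀ m ∈ S, Finset.univ.gcd m = 1) (v : Fin d → ℤ) (Dm : ℕ)
    (hDm : ∀ m ∈ S, ∀ i, 2 * (m i).natAbs ≤ Dm) [NeZero (2 * H * B)] :
    (1 - ((∑ m ∈ S, swp v m : ℕ) : ℝ) / B - ((#S * #S * Dm : ℕ) : ℝ) / H) *
      ((2 * H * B) ^ d : ℕ) ≤ (Nat.card {w // Good B H S v w} : ℝ) := by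
  classical
  set R := 2 * H * B with hR
  let E : (Fin d → ℤ) → Finset (Fin d → ZMod R) := fun m =>
    univ.filter fun w => ¬ pos R v m w % B + swp v m ≤ B
  let F : (Fin d → ℤ) × (Fin d → ℤ) → Finset (Fin d → ZMod R) := fun q =>
    univ.filter fun w => q.1 ≠ q.2 ∧ pos R v q.1 w / B = pos R v q.2 w / B
  have hE : ∀ m ∈ S, #(E m) * B ≤ swp v m * R ^ d := by
    intro m hm
    set s := swp v m
    set T : Finset ℕ := (range (2 * H) ×ˢ range s).image fun q => q.1 * B + (B - 1 - q.2) with hT
    set Y : Finset (ZMod R) := T.image fun r : ℕ => (r : ZMod R) + (shiftOf v m : ZMod R) with hY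
    have hYc : #Y ≤ 2 * H * s :=
      card_image_le.trans (card_image_le.trans (le_of_eq (by simp)))
    have hsub : E m ⊆ Y.biUnion fun y => univ.filter fun w => lin R m w = y := by
      intro w hw
      simp only [E, mem_filter, mem_univ, true_and, not_le] at hw
      refine mem_biUnion.2 ⟨lin R m w, ?_, by simp⟩
      set r := pos R v m w with hr
      have hrR : r < R := ZMod.val_lt _
      refine mem_image.2 ⟨r, ?_, ?_⟩
      · refine mem_image.2 ⟨(r / B, B - 1 - r % B), mem_product.2 ⟨?_, ?_⟩, ?_⟩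
        · exact mem_range.2 ((Nat.div_lt_iff_lt_mul hB).2 hrR)
        · have := Nat.mod_lt r hB
          exact mem_range.2 (by omega)
        · have := Nat.mod_lt r hB
          have := Nat.div_add_mod r B
          rw [Nat.mul_comm] at this
          simp only; omega
      · rw [hr, pos, ZMod.natCast_zmod_val, sub_add_cancel]
    have h1 : #(E m) * R ≤ 2 * H * (s * R ^ d) := by
      calc #(E m) * R ≤ (∑ y ∈ Y, #(univ.filter fun w : Fin d → ZMod R => lin R m w = y)) * R :=
            Nat.mul_le_mul_right _ ((card_le_card hsub).trans card_biUnion_le)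
        _ = #Y * R ^ d := by
            rw [sum_mul, sum_congr rfl fun y _ => fibre_card m (hS m hm) y, sum_const, smul_eq_mul]
        _ ≤ 2 * H * s * R ^ d := Nat.mul_le_mul_right _ hYc
        _ = _ := by ring
    refine Nat.le_of_mul_le_mul_left ?_ (show 0 < 2 * H by omega)
    calc 2 * H * (#(E m) * B) = #(E m) * (2 * H * B) := by ring
      _ = #(E m) * R := congrArg _ hR.symm
      _ ≤ _ := h1
  have hF : ∀ q ∈ S ×ˢ S, #(F q) * H ≤ Dm * R ^ d := by
    rintro ⟨m, m'⟩ hq
    obtain ⟨hm, hm'⟩ := mem_product.1 hq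
    rcases eq_or_ne m m' with rfl | hne
    · simp [F]
    obtain ⟨i, hi⟩ := Function.ne_iff.1 hne
    have hD : (m' - m) i ≠ 0 := by simpa [sub_eq_zero] using Ne.symm hi
    set c : ZMod R := (shiftOf v m' : ZMod R) - (shiftOf v m : ZMod R)
    set Y : Finset (ZMod R) := (Finset.Ioo (-(B : ℤ)) B).image fun k : ℤ => (k : ZMod R) + c
    have hYc : #Y ≤ 2 * B := card_image_le.trans (by rw [Int.card_Ioo]; omega)
    have hsub : F (m, m') ⊆ univ.filter fun w => lin R (m' - m) w ∈ Y := by
      intro w hw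
      simp only [F, mem_filter, mem_univ, true_and] at hw ⊢
      obtain ⟨-, hdiv⟩ := hw
      refine mem_image.2 ⟨(pos R v m' w : ℤ) - pos R v m w, ?_, ?_⟩
      · have h1 := Nat.div_add_mod (pos R v m w) B
        have h2 := Nat.div_add_mod (pos R v m' w) B
        have h3 := Nat.mod_lt (pos R v m w) hB
        have h4 := Nat.mod_lt (pos R v m' w) hB
        rw [hdiv] at h1
        rw [Finset.mem_Ioo]
        omega
      · push_cast
        rw [pos, pos, ZMod.natCast_zmod_val, ZMod.natCast_zmod_val, lin_sub_left]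
        ring
    have hn : ((m' - m) i).natAbs ≤ Dm := by
      have := hDm m hm i
      have := hDm m' hm' i
      simp only [Pi.sub_apply]
      omega
    have h1 : #(F (m, m')) * R ≤ 2 * B * (Dm * R ^ d) := by
      calc #(F (m, m')) * R
          ≤ #(univ.filter fun w : Fin d → ZMod R => lin R (m' - m) w ∈ Y) * R :=
            Nat.mul_le_mul_right _ (card_le_card hsub)
        _ ≤ #Y * ((m' - m) i).natAbs * R ^ d := set_card _ i hD Y
        _ ≤ 2 * B * Dm * R ^ d := by gcongr
        _ = _ := by ring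
    refine Nat.le_of_mul_le_mul_left ?_ (show 0 < 2 * B by omega)
    calc 2 * B * (#(F (m, m')) * H) = #(F (m, m')) * (2 * H * B) := by ring
      _ = #(F (m, m')) * R := congrArg _ hR.symm
      _ ≤ _ := h1
  have hsplit : R ^ d ≤ #(univ.filter fun w : Fin d → ZMod R => Good B H S v w) +
      (∑ m ∈ S, #(E m) + ∑ q ∈ S ×ˢ S, #(F q)) := by
    have hcov : (univ : Finset (Fin d → ZMod R)) ⊆
        (univ.filter fun w : Fin d → ZMod R => Good B H S v w) ∪
          (S.biUnion E ∪ (S ×ˢ S).biUnion F) := by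
      intro w _
      by_cases hg : Good B H S v w
      · exact mem_union_left _ (mem_filter.2 ⟨mem_univ _, hg⟩)
      refine mem_union_right _ ?_
      rw [Good, not_and_or] at hg
      rcases hg with hg | hg
      · push Not at hg
        obtain ⟨m, hm, hlt⟩ := hg
        exact mem_union_left _ (mem_biUnion.2 ⟨m, hm, mem_filter.2 ⟨mem_univ _, hlt.not_ge⟩⟩)
      · simp only [Set.InjOn, mem_coe, not_forall] at hg
        obtain ⟨m, hm, m', hm', heq, hne⟩ := hg
        exact mem_union_right _ (mem_biUnion.2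
          ⟨(m, m'), mem_product.2 ⟨hm, hm'⟩, mem_filter.2 ⟨mem_univ _, hne, heq⟩⟩)
    have h := card_le_card hcov
    rw [card_univ, Fintype.card_fun, ZMod.card, Fintype.card_fin] at h
    refine h.trans ((card_union_le _ _).trans (Nat.add_le_add_left ?_ _))
    exact (card_union_le _ _).trans (Nat.add_le_add card_biUnion_le card_biUnion_le)
  have hBR : (0 : ℝ) < B := by exact_mod_cast hB
  have hHR : (0 : ℝ) < H := by exact_mod_cast hH
  have e1 : ((∑ m ∈ S, #(E m) : ℕ) : ℝ) ≤ ((∑ m ∈ S, swp v m : ℕ) : ℝ) / B * (R ^ d : ℕ) := by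
    rw [div_mul_eq_mul_div, le_div_iff₀ hBR]
    exact_mod_cast (sum_mul S _ B).trans_le ((sum_le_sum hE).trans (sum_mul S _ _).ge)
  have e2 : ((∑ q ∈ S ×ˢ S, #(F q) : ℕ) : ℝ) ≤ ((#S * #S * Dm : ℕ) : ℝ) / H * (R ^ d : ℕ) := by
    rw [div_mul_eq_mul_div, le_div_iff₀ hHR]
    have hh : (∑ q ∈ S ×ˢ S, #(F q)) * H ≤ #S * #S * Dm * R ^ d := by
      rw [sum_mul]
      refine (sum_le_sum hF).trans_eq ?_
      rw [sum_const, card_product, smul_eq_mul]
      ring
    exact_mod_cast hh
  have e3 : ((R ^ d : ℕ) : ℝ) ≤ (#(univ.filter fun w : Fin d → ZMod R => Good B H S v w) : ℝ) +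
      (((∑ m ∈ S, #(E m) : ℕ) : ℝ) + ((∑ q ∈ S ×ˢ S, #(F q) : ℕ) : ℝ)) := by
    exact_mod_cast hsplit
  rw [Nat.card_eq_fintype_card, Fintype.card_subtype, sub_mul, sub_mul, one_mul]
  linarith

end Vale.Agent.P110.UF.Pack
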