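import Vale.Agent.P110.UF.Pack.Defs

/-!
# P110: finite quadratic phases (`QuadStmt`)

Finite inversion, Parseval and the exact flatness of the Fourier transform of
`k ↦ e((A k² + G k) / L)` when `L / gcd (L, A)` is odd.
-/

open Finset
open scoped ComplexConjugate

namespace Vale.Agent.P110.UF.Pack

/-- The character `n ↦ e(n / L)` of the integers modulo `L`. -/
noncomputable def eL (L : ℕ) (n : ℤ) : ℂ := ex ((n : ℝ) / L)

theorem eL_add (L : ℕ) (m n : ℤ) : eL L (m + n) = eL L m * eL L n := by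
  simp only [eL, ex, ← Complex.exp_add]
  congr 1
  push_cast
  ring

theorem eL_zero (L : ℕ) : eL L 0 = 1 := by simp [eL, ex]

theorem eL_conj (L : ℕ) (n : ℤ) : conj (eL L n) = eL L (-n) := by
  simp only [eL, ex, ← Complex.exp_conj, map_mul, Complex.conj_I, Complex.conj_ofReal]
  congr 1
  push_cast
  ring

theorem norm_eL (L : ℕ) (n : ℤ) : ‖eL L n‖ = 1 := by
  simp [eL, ex, Complex.norm_exp]

theorem eL_eq_exp (L : ℕ) (n : ℤ) :
    eL L n = Complex.exp (2 * (Real.pi : ℂ) * Complex.I / (L : ℂ)) ^ n := by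
  rw [← Complex.exp_int_mul]
  simp only [eL, ex]
  congr 1
  push_cast
  ring

theorem eL_eq_one_iff {L : ℕ} (hL : 0 < L) (n : ℤ) : eL L n = 1 ↔ (L : ℤ) ∣ n := by
  rw [eL_eq_exp]
  exact (Complex.isPrimitiveRoot_exp L hL.ne').zpow_eq_one_iff_dvd n

theorem eL_congr {L : ℕ} (hL : 0 < L) {m n : ℤ} (h : (L : ℤ) ∣ m - n) : eL L m = eL L n := by
  calc eL L m = eL L (m - n + n) := by rw [sub_add_cancel]
    _ = eL L n := by rw [eL_add, (eL_eq_one_iff hL _).2 h, one_mul]

theorem eL_pow (L : ℕ) (n : ℤ) (k : ℕ) : eL L n ^ k = eL L (n * k) := by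
  induction k with
  | zero => simp [eL_zero]
  | succ k ih => rw [pow_succ, ih, ← eL_add]; congr 1; push_cast; ring

theorem eL_sum {L : ℕ} (hL : 0 < L) (n : ℤ) :
    ∑ k ∈ range L, eL L (n * k) = if (L : ℤ) ∣ n then (L : ℂ) else 0 := by
  simp only [← eL_pow]
  split_ifs with h
  · simp [(eL_eq_one_iff hL n).2 h]
  · have h1 : eL L n ≠ 1 := fun e => h ((eL_eq_one_iff hL n).1 e)
    have h2 : eL L n ^ L = 1 := by rw [eL_pow, eL_eq_one_iff hL]; exact dvd_mul_left _ _
    rw [geom_sum_eq h1, h2, sub_self, zero_div]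

theorem eL_scale {O : ℕ} (hO : 0 < O) (γ : ℕ) (n : ℤ) : eL (O * γ) (O * n) = eL γ n := by
  have hO' : (O : ℝ) ≠ 0 := Nat.cast_ne_zero.2 hO.ne'
  simp only [eL]
  congr 1
  push_cast
  rw [mul_div_mul_left _ _ hO']

theorem quadDFT_eq (L : ℕ) (A G a : ℤ) :
    quadDFT L A G a = (1 / (L : ℂ)) * ∑ k ∈ range L, eL L (A * (k : ℤ) ^ 2 + (G - a) * k) :=
  rfl

theorem quad_conj (L : ℕ) (A G a : ℤ) :
    quadDFT L (-A) (-G) (-a) = conj (quadDFT L A G a) := by
  simp only [quadDFT_eq, map_mul, map_div₀, map_one, map_natCast, map_sum, eL_conj]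
  congr 1
  exact sum_congr rfl fun k _ => congrArg _ (by ring)

theorem quad_congr {L : ℕ} (hL : 0 < L) (A G a a' : ℤ) (h : (L : ℤ) ∣ a - a') :
    quadDFT L A G a = quadDFT L A G a' := by
  simp only [quadDFT_eq]
  congr 1
  refine sum_congr rfl fun k _ => eL_congr hL ?_
  obtain ⟨c, hc⟩ := h
  exact ⟨-(c * k), by linear_combination (-(k : ℤ)) * hc⟩

theorem quad_inversion {L : ℕ} (hL : 0 < L) (A G k : ℤ) :
    ∑ a ∈ range L, quadDFT L A G a * eL L ((a : ℤ) * k) = eL L (A * k ^ 2 + G * k) := by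
  have h1 : ∀ a : ℕ, quadDFT L A G a * eL L ((a : ℤ) * k) =
      (1 / (L : ℂ)) * ∑ l ∈ range L, eL L (A * (l : ℤ) ^ 2 + G * l) * eL L ((k - l) * a) := by
    intro a
    rw [quadDFT_eq, mul_assoc, sum_mul]
    congr 1
    refine sum_congr rfl fun l _ => ?_
    rw [← eL_add, ← eL_add]
    congr 1
    ring
  rw [sum_congr rfl fun a _ => h1 a, ← mul_sum, sum_comm]
  simp_rw [← mul_sum, eL_sum hL]
  have hL' : (L : ℤ) ≠ 0 := Int.natCast_ne_zero.2 hL.ne'
  obtain ⟨l0, hl0⟩ : ∃ l0 : ℕ, (l0 : ℤ) = k % (L : ℤ) :=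
    ⟨(k % (L : ℤ)).toNat, Int.toNat_of_nonneg (Int.emod_nonneg _ hL')⟩
  have hl0L : l0 < L := by
    have := Int.emod_lt_of_pos k (by exact_mod_cast hL : (0 : ℤ) < L)
    omega
  have hd0 : (L : ℤ) ∣ k - l0 := by rw [hl0]; exact Int.dvd_self_sub_emod
  rw [sum_eq_single l0]
  · rw [if_pos hd0, eL_congr hL (n := A * k ^ 2 + G * k)]
    · have hLC : (L : ℂ) ≠ 0 := Nat.cast_ne_zero.2 hL.ne'
      field_simp
    · obtain ⟨c, hc⟩ := hd0
      exact ⟨-(c * (A * (l0 + k) + G)),
        by linear_combination (-(A * ((l0 : ℤ) + k) + G)) * hc⟩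
  · intro l hl hne
    rw [if_neg, mul_zero]
    intro hd
    have hd' : (L : ℤ) ∣ (l : ℤ) - l0 := by
      have := dvd_sub hd0 hd
      rwa [sub_sub_sub_cancel_left] at this
    have hlL := mem_range.1 hl
    have h0 := Int.eq_zero_of_abs_lt_dvd hd' (abs_lt.2 ⟨by omega, by omega⟩)
    exact hne (by omega)
  · exact fun h => (h (mem_range.2 hl0L)).elim

theorem quad_energy {L : ℕ} (hL : 0 < L) (A G : ℤ) :
    ∑ a ∈ range L, ‖quadDFT L A G a‖ ^ 2 = 1 := by
  have h : ∀ a : ℕ, ((‖quadDFT L A G a‖ ^ 2 : ℝ) : ℂ) =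
      (1 / (L : ℂ) ^ 2) * ∑ l ∈ range L, ∑ l' ∈ range L,
        eL L (A * (l : ℤ) ^ 2 + G * l - (A * (l' : ℤ) ^ 2 + G * l')) *
          eL L (((l' : ℤ) - l) * a) := by
    intro a
    push_cast
    rw [← Complex.mul_conj', quadDFT_eq]
    simp only [map_mul, map_div₀, map_one, map_natCast, map_sum, eL_conj]
    rw [mul_mul_mul_comm, sum_mul_sum, div_mul_div_comm, one_mul, ← pow_two]
    congr 1
    refine sum_congr rfl fun l _ => sum_congr rfl fun l' _ => ?_
    rw [← eL_add, ← eL_add]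
    congr 1
    ring
  have key : ((∑ a ∈ range L, ‖quadDFT L A G a‖ ^ 2 : ℝ) : ℂ) = 1 := by
    rw [Complex.ofReal_sum, sum_congr rfl fun a _ => h a, ← mul_sum, sum_comm]
    rw [sum_congr rfl fun l _ => sum_comm]
    simp_rw [← mul_sum, eL_sum hL]
    have hin : ∀ l ∈ range L, ∑ l' ∈ range L,
        eL L (A * (l : ℤ) ^ 2 + G * l - (A * (l' : ℤ) ^ 2 + G * l')) *
          (if (L : ℤ) ∣ (l' : ℤ) - l then (L : ℂ) else 0) = L := by
      intro l hl
      rw [sum_eq_single l]
      · rw [if_pos (by simp), sub_self, eL_zero, one_mul]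
      · intro l' hl' hne
        rw [if_neg, mul_zero]
        intro hd
        have hlL := mem_range.1 hl
        have hlL' := mem_range.1 hl'
        have h0 := Int.eq_zero_of_abs_lt_dvd hd (abs_lt.2 ⟨by omega, by omega⟩)
        exact hne (by omega)
      · exact fun h => (h hl).elim
    rw [sum_congr rfl hin, sum_const, card_range, nsmul_eq_mul]
    have : (L : ℂ) ≠ 0 := Nat.cast_ne_zero.2 hL.ne'
    field_simp
  exact_mod_cast key

theorem quad_flat {L : ℕ} (hL : 0 < L) (O γ : ℕ) (α G a : ℤ) (hLO : L = O * γ) (hγ : Odd γ)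
    (hα : IsCoprime α (γ : ℤ)) :
    ‖quadDFT L (O * α) G a‖ ^ 2 = if (O : ℤ) ∣ G - a then (O : ℝ) / L else 0 := by
  subst hLO
  have hO : 0 < O := Nat.pos_of_mul_pos_right hL
  have hγ0 : 0 < γ := Nat.pos_of_mul_pos_left hL
  set D := G - a
  have hOγ : ((O : ℂ) * γ) ≠ 0 := mul_ne_zero (Nat.cast_ne_zero.2 hO.ne')
    (Nat.cast_ne_zero.2 hγ0.ne')
  have hsplit : ∑ k ∈ range (O * γ), eL (O * γ) (O * α * (k : ℤ) ^ 2 + D * k) =
      (∑ i ∈ range O, eL O (D * i)) *
        ∑ k ∈ range γ, eL (O * γ) (O * α * (k : ℤ) ^ 2 + D * k) := by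
    have hr : ∀ n : ℕ, ∑ k ∈ range (n * γ), eL (O * γ) (O * α * (k : ℤ) ^ 2 + D * k) =
        ∑ i ∈ range n, ∑ k ∈ range γ,
          eL (O * γ) (O * α * ((i * γ + k : ℕ) : ℤ) ^ 2 + D * (i * γ + k : ℕ)) := by
      intro n
      induction n with
      | zero => simp
      | succ n ih => rw [sum_range_succ, Nat.succ_mul, sum_range_add, ih]
    rw [hr O, sum_mul]
    refine sum_congr rfl fun i _ => ?_
    rw [mul_sum]
    refine sum_congr rfl fun k _ => ?_
    have he : eL O (D * i) = eL (O * γ) ((γ : ℤ) * (D * i)) := by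
      rw [mul_comm O γ, eL_scale hγ0]
    rw [he, ← eL_add]
    refine eL_congr (Nat.mul_pos hO hγ0) ⟨α * ((i : ℤ) * i * γ + 2 * i * k), ?_⟩
    push_cast
    ring
  rw [quadDFT_eq, hsplit, eL_sum hO]
  split_ifs with hD
  · obtain ⟨b, hb⟩ := hD
    have hS : ∀ k : ℕ, eL (O * γ) (O * α * (k : ℤ) ^ 2 + D * k) =
        eL γ (α * (k : ℤ) ^ 2 + b * k) := by
      intro k
      rw [← eL_scale hO γ, hb]
      congr 1
      ring
    simp only [hS]
    set S := ∑ k ∈ range γ, eL γ (α * (k : ℤ) ^ 2 + b * k)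
    have hG : S * conj S = γ := by
      have hdiff : ∀ k ∈ range γ, ∑ l ∈ range γ,
          eL γ (α * (l : ℤ) ^ 2 + b * l) * eL γ (-(α * (k : ℤ) ^ 2 + b * k)) =
          ∑ h ∈ range γ, eL γ (α * (h : ℤ) ^ 2 + b * h) * eL γ (2 * α * h * k) := by
        intro k _
        symm
        refine sum_nbij' (fun h => (h + k) % γ) (fun l => (l + (γ - k % γ)) % γ) ?_ ?_ ?_ ?_ ?_
        · intro h _; exact mem_range.2 (Nat.mod_lt _ hγ0)
        · intro l _; exact mem_range.2 (Nat.mod_lt _ hγ0)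
        · intro h hh
          have hh' := mem_range.1 hh
          have hk : k % γ < γ := Nat.mod_lt _ hγ0
          rw [Nat.mod_add_mod, Nat.add_assoc,
            show k + (γ - k % γ) = γ * (k / γ + 1) by
              have := Nat.div_add_mod k γ; rw [Nat.mul_add, mul_one]; omega,
            Nat.add_mul_mod_self_left, Nat.mod_eq_of_lt hh']
        · intro l hl
          have hl' := mem_range.1 hl
          have hk : k % γ < γ := Nat.mod_lt _ hγ0
          rw [Nat.mod_add_mod, Nat.add_assoc,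
            show γ - k % γ + k = γ * (k / γ + 1) by
              have := Nat.div_add_mod k γ; rw [Nat.mul_add, mul_one]; omega,
            Nat.add_mul_mod_self_left, Nat.mod_eq_of_lt hl']
        · intro h _
          rw [← eL_add, ← eL_add]
          refine eL_congr hγ0 ?_
          have hm : (((h + k) % γ : ℕ) : ℤ) =
              (h : ℤ) + k - γ * (((h + k) / γ : ℕ) : ℤ) := by
            have := Nat.mod_add_div (h + k) γ
            have h' : (((h + k) % γ : ℕ) : ℤ) + γ * (((h + k) / γ : ℕ) : ℤ) =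
                (h : ℤ) + k := by exact_mod_cast this
            linarith
          refine ⟨(((h + k) / γ : ℕ) : ℤ) *
            (α * ((h : ℤ) + k + (((h + k) % γ : ℕ) : ℤ)) + b), ?_⟩
          linear_combination (-(α * ((h : ℤ) + k + (((h + k) % γ : ℕ) : ℤ)) + b)) * hm
      rw [map_sum]
      simp only [eL_conj]
      rw [sum_mul_sum, sum_comm, sum_congr rfl hdiff, sum_comm]
      simp_rw [← mul_sum, eL_sum hγ0]
      rw [sum_eq_single 0]
      · simp [eL_zero]
      · intro h hh hne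
        rw [if_neg, mul_zero]
        intro hd
        have h2 : IsCoprime (γ : ℤ) (2 * α) := by
          refine IsCoprime.mul_right ?_ hα.symm
          exact_mod_cast (Nat.coprime_two_right.2 hγ).isCoprime
        have h3 : (γ : ℤ) ∣ (h : ℤ) := h2.dvd_of_dvd_mul_left hd
        have := Nat.eq_zero_of_dvd_of_lt (Int.natCast_dvd_natCast.1 h3) (mem_range.1 hh)
        exact hne this
      · exact fun h => (h (mem_range.2 hγ0)).elim
    have hn : ‖S‖ ^ 2 = γ := by
      have := hG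
      rw [Complex.mul_conj'] at this
      exact_mod_cast this
    push_cast
    rw [one_div, norm_mul, norm_mul, mul_pow, mul_pow, norm_inv, norm_mul, Complex.norm_natCast,
      Complex.norm_natCast, hn]
    have hO' : (O : ℝ) ≠ 0 := Nat.cast_ne_zero.2 hO.ne'
    have hγ' : (γ : ℝ) ≠ 0 := Nat.cast_ne_zero.2 hγ0.ne'
    field_simp
  · simp

/-- All facts about finite quadratic phases hold. -/
theorem quad_stmt : QuadStmt := fun L hL =>
  { inversion := fun A G k => quad_inversion hL A G k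
    conjugate := fun A G a => quad_conj L A G a
    congr := fun A G a a' => quad_congr hL A G a a'
    energy := fun A G => quad_energy hL A G
    flat := fun O γ α G a => quad_flat hL O γ α G a }

end Vale.Agent.P110.UF.Pack
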