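import Vale.Agent.P110.UF.Pack.Signal
import Vale.Agent.P110.UF.Pack.Count

/-!
# P110: the packing turns a block into a tiling
-/

open Finset
open scoped Classical ComplexConjugate

namespace Vale.Agent.P110.UF.Pack

namespace Cfg

variable (K : Cfg)

lemma piece_card :
    Fintype.card K.Piece =
      K.P.mu * Nat.card {w : Fin K.d → ZMod K.R // Good K.B K.H K.S K.V.v w} := by
  rw [← Nat.card_eq_fintype_card,
    Nat.card_congr (Equiv.subtypeProdEquivSigmaSubtype fun (w : Fin K.d → ZMod K.R)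
      (_ : Fin K.P.mu) => Good K.B K.H K.S K.V.v w)]
  simp only [Nat.card_sigma]
  have : ∀ w : Fin K.d → ZMod K.R, Nat.card {_b : Fin K.P.mu // Good K.B K.H K.S K.V.v w} =
      if Good K.B K.H K.S K.V.v w then K.P.mu else 0 := by
    intro w
    split_ifs with h
    · rw [Nat.card_congr (Equiv.subtypeUnivEquiv fun _ => h), Nat.card_eq_fintype_card,
        Fintype.card_fin]
    · rw [Nat.card_eq_zero]
      exact Or.inl ⟨fun x => h x.2⟩
  simp only [this]
  rw [← sum_filter, sum_const, smul_eq_mul, Nat.card_eq_fintype_card, Fintype.card_subtype,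
    mul_comm]

theorem tiling (ε : ℝ) (hprim : ∀ m ∈ K.S, Finset.univ.gcd m = 1)
    (hblock : ∀ θ : Fin K.d → ℝ, ‖∑ m ∈ K.S, K.c m * ex (∑ i, (m i : ℝ) * θ i)‖ ≤ 1)
    (hκ : 3 * K.κ * #K.S ≤ ε) (hε : 0 < ε) (g E : ℝ)
    (hgood : g * (K.R ^ K.d : ℕ) ≤ (Nat.card {w // Good K.B K.H K.S K.V.v w} : ℝ))
    (hE : E ≤ ∑ m ∈ K.S, ‖K.c m‖ ^ 2) (hhalf : 1 ≤ 2 * ((1 - K.κ * 3) * E))
    (hbud : g + 2 - 2 * g * ((1 - K.κ * 3) * E) ≤ 1 + ε) :
    Nonempty (Tiling ε) := by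
  have hfib : ∀ (m : K.Vec) (p : ℕ), #(K.fib m p) ≤ K.K1 := fun m p =>
    K.fib_card m p fun x => fibre_card m.1 (hprim _ m.2) x
  have hJ : (0 : ℝ) < K.J0 := Nat.cast_pos.2 K.J0_pos
  have hL : (0 : ℝ) < K.L := Nat.cast_pos.2 K.L_pos
  let ι := Σ j : K.Piece, {p // p ∈ K.half j}
  have hmem : ∀ i : ι, i.2.1 ∈ K.items i.1 := fun i => (mem_filter.1 i.2.2).1
  refine assemble (ι := ι) (ω := K.Piece) ε hε.le K.L K.L_pos K.L_even (fun _ => 1 / (K.J0 : ℝ))
    (fun _ => by positivity) (fun i => i.2.1.2) (fun i => K.n i.2.1.1)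
    (fun i => decide (0 ≤ dot K.V.v i.2.1.1.1)) (fun i => i.1) (fun i => K.cf i.1 i.2.1)
    (fun i => K.n_pos _) (fun i => (mem_filter.1 i.2.2).2) ?_ ?_ ?_ ?_
  · rintro ⟨j, p, hp⟩ ⟨j', p', hp'⟩ a h1 h2 h1' h2'
    obtain ⟨rfl, rfl⟩ := K.disjoint_half hfib (hmem ⟨j, p, hp⟩) (hmem ⟨j', p', hp'⟩) h1 h2 h1' h2'
    rfl
  · intro i
    rw [K.norm_cf (hmem i)]
    field_simp
  · intro j k u
    have key : ∀ p : K.Vec × ℕ, K.cf j p *
        ex ((if decide (0 ≤ dot K.V.v p.1.1) = true then (p.2 : ℝ) * k + (K.n p.1 : ℝ) * u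
          else ((p.2 + K.n p.1 : ℕ) : ℝ) * k - (K.n p.1 : ℝ) * u) / K.L) = K.term j k u p := by
      intro p
      have hv := dot_eq_sign (v := K.V.v) (m := p.1.1)
      have hR : (dot K.V.v p.1.1 : ℝ) =
          if dot K.V.v p.1.1 < 0 then -(K.n p.1 : ℝ) else (K.n p.1 : ℝ) := by
        conv_lhs => rw [hv]
        split_ifs <;> simp [Cfg.n]
      rw [term, hR]
      by_cases h : dot K.V.v p.1.1 < 0
      · rw [decide_eq_false (not_le.2 h), if_pos h]
        simp only [sh, shiftOf, if_pos h, Cfg.n, Bool.false_eq_true, if_false]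
        congr 3; ring
      · rw [decide_eq_true (not_lt.1 h), if_neg h]
        simp only [sh, shiftOf, if_neg h, add_zero, if_true]
    refine le_trans (le_of_eq ?_) (le_trans (K.signal_bound j k u hblock) (by linarith))
    congr 3
    rw [sum_filter, Fintype.sum_sigma, sum_eq_single j]
    · simp only [if_true]
      rw [← sum_coe_sort (K.half j) (K.term j k u)]
      exact sum_congr rfl fun p _ => key p.1
    · exact fun j' _ hne => sum_eq_zero fun p _ => if_neg hne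
    · exact fun h => absurd (mem_univ j) h
  · set W := (Fintype.card K.Piece : ℝ) with hW
    set μ : ℝ := (1 - K.κ * 3) * E with hμ
    have hlen : W * (K.L / K.J0 * μ) ≤ 2 * ∑ i : ι, (K.n i.2.1.1 : ℝ) := by
      rw [Fintype.sum_sigma, mul_sum, hW, ← nsmul_eq_mul]
      refine card_nsmul_le_sum univ _ _ fun j _ => ?_
      rw [sum_coe_sort (K.half j) (fun p => (K.n p.1 : ℝ)), K.half_length j]
      refine mul_le_mul_of_nonneg_left ?_ (by positivity)
      refine le_trans (mul_le_mul_of_nonneg_left hE (by linarith [K.ksmall])) ?_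
      rw [mul_sum, ← sum_coe_sort K.S (fun m => (1 - K.κ * 3) * ‖K.c m‖ ^ 2)]
      exact sum_le_sum fun m _ =>
        mul_le_mul_of_nonneg_right (K.lam_bounds j m).1 (sq_nonneg _)
    have hWg : g ≤ W / K.J0 := by
      rw [le_div_iff₀ hJ, hW, K.piece_card, J0]
      push_cast
      rw [Nat.cast_pow] at hgood
      push_cast at hgood
      calc g * ((K.P.mu : ℝ) * ((2 : ℝ) * K.H * K.B) ^ K.d)
          = (K.P.mu : ℝ) * (g * ((2 : ℝ) * K.H * K.B) ^ K.d) := by ring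
        _ ≤ (K.P.mu : ℝ) * (Nat.card {w // Good K.B K.H K.S K.V.v w} : ℝ) :=
            mul_le_mul_of_nonneg_left hgood (Nat.cast_nonneg _)
    simp only [sum_const, card_univ, nsmul_eq_mul, mul_one_div]
    rw [← hW]
    have h2 : 2 * (W / K.J0 * μ) ≤ 4 * (∑ i : ι, (K.n i.2.1.1 : ℝ)) / K.L := by
      rw [le_div_iff₀ hL]
      calc 2 * (W / K.J0 * μ) * K.L = 2 * (W * (K.L / K.J0 * μ)) := by ring
        _ ≤ 2 * (2 * ∑ i : ι, (K.n i.2.1.1 : ℝ)) := by linarith
        _ = _ := by ring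
    have h3 : 0 ≤ (W / K.J0 - g) * (2 * μ - 1) :=
      mul_nonneg (by linarith) (by linarith)
    linarith

end Cfg

/-- Packing: a bounded block with primitive frequencies gives tilings. -/
theorem tiling_stmt (hB : BlockStmt) : TilingStmt := by
  intro ε hε
  set ε₀ : ℝ := min (ε / 20) (1 / 16) with hε₀
  have he : 0 < ε₀ := lt_min (by linarith) (by norm_num)
  have he1 : ε₀ ≤ ε / 20 := min_le_left _ _
  have he2 : ε₀ ≤ 1 / 16 := min_le_right _ _
  obtain ⟨d, S₀, c, hprim₀, hneg₀, hconj₀, hbd₀, hlow₀, hhigh₀⟩ := hB ε₀ he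
  set S := S₀.filter fun m => c m ≠ 0 with hS
  have hsub : ∀ m ∈ S, m ∈ S₀ := fun m hm => (mem_filter.1 hm).1
  have hprim : ∀ m ∈ S, Finset.univ.gcd m = 1 := fun m hm => hprim₀ m (hsub m hm)
  have hcne : ∀ m ∈ S, c m ≠ 0 := fun m hm => (mem_filter.1 hm).2
  have hneg : ∀ m ∈ S, -m ∈ S := fun m hm => mem_filter.2 ⟨hneg₀ m (hsub m hm), by
    rw [hconj₀ m (hsub m hm)]
    exact fun e => hcne m hm (by simpa using e)⟩
  have hsum : ∑ m ∈ S, ‖c m‖ ^ 2 = ∑ m ∈ S₀, ‖c m‖ ^ 2 :=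
    sum_filter_of_ne fun m _ h hz => h (by rw [hz]; simp)
  have hbd : ∀ θ : Fin d → ℝ, ‖∑ m ∈ S, c m * ex (∑ i, (m i : ℝ) * θ i)‖ ≤ 1 := fun θ => by
    rw [hS, sum_filter_of_ne (p := fun m => c m ≠ 0) fun m _ h hz => h (by rw [hz, zero_mul])]
    exact hbd₀ θ
  obtain ⟨V⟩ := vectors_exist S hprim
  have hnonempty : S.Nonempty := by
    rw [nonempty_iff_ne_empty]
    intro h
    rw [h, sum_empty] at hsum
    linarith
  have hd : 0 < d := by
    obtain ⟨m, hm⟩ := hnonempty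
    rcases Nat.eq_zero_or_pos d with rfl | h
    · exact absurd (funext fun i => i.elim0) (ne_zero_of_gcd (hprim m hm))
    · exact h
  have : Nonempty {m // m ∈ S} := hnonempty.to_subtype
  set κ : ℝ := min ε₀ (ε / (3 * (#S + 1))) with hκ
  have hκ0 : 0 < κ := lt_min he (by positivity)
  have hκ1 : κ ≤ ε₀ := min_le_left _ _
  have hκ2 : 3 * κ * #S ≤ ε := by
    have h := min_le_right ε₀ (ε / (3 * ((#S : ℝ) + 1)))
    rw [← hκ, le_div_iff₀ (by positivity)] at h
    nlinarith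
  set N1 : ℕ := ∑ m ∈ S, swp V.v m with hN1
  set Dm : ℕ := 2 * ∑ m ∈ S, ∑ i, (m i).natAbs with hDm
  obtain ⟨B, hBk⟩ := exists_nat_ge ((N1 : ℝ) / κ + 1)
  obtain ⟨H, hHk⟩ := exists_nat_ge (((#S * #S * Dm : ℕ) : ℝ) / κ + 1)
  have hB1 : (1 : ℝ) ≤ B := le_trans (le_add_of_nonneg_left (by positivity)) hBk
  have hH1 : (1 : ℝ) ≤ H := le_trans (le_add_of_nonneg_left (by positivity)) hHk
  have hB0 : 0 < B := by exact_mod_cast hB1
  have hH0 : 0 < H := by exact_mod_cast hH1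
  have hNB : (N1 : ℝ) / B ≤ κ := by
    rw [div_le_iff₀ (by positivity), ← div_le_iff₀' hκ0]
    linarith
  have hSH : ((#S * #S * Dm : ℕ) : ℝ) / H ≤ κ := by
    rw [div_le_iff₀ (by positivity), ← div_le_iff₀' hκ0]
    linarith
  let D : ℕ := (∏ m ∈ S, (dot V.v m).natAbs) *
    ∏ m ∈ S, ∏ m' ∈ S, (if dot (V.perp m) m' = 0 then 1 else (dot (V.perp m) m').natAbs)
  have hD : 0 < D := by
    refine Nat.mul_pos (prod_pos fun m hm => Int.natAbs_pos.2 (V.v_ne m hm))
      (prod_pos fun m _ => prod_pos fun m' _ => ?_)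
    split_ifs with h
    · exact Nat.one_pos
    · exact Int.natAbs_pos.2 h
  have hc1 : ∀ m : {m // m ∈ S}, ‖c m.1‖ ^ 2 ≤ 1 := fun m =>
    (single_le_sum (f := fun m => ‖c m‖ ^ 2) (fun i _ => by positivity) m.2).trans
      (hsum.le.trans hhigh₀)
  obtain ⟨P⟩ := params_exist (fun m : {m // m ∈ S} => swp V.v m)
    (fun m : {m // m ∈ S} => ‖c m‖ ^ 2) κ d D B H (fun m => swp_pos (V.v_ne _ m.2))
    (fun m => pow_pos (norm_pos_iff.2 (hcne _ m.2)) 2) hc1 hκ0 (by linarith) hB0 hH0 hD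
  let K : Cfg :=
    { d := d, S := S, c := c, V := V, B := B, H := H, κ := κ, D := D, d_pos := hd, B_pos := hB0,
      H_pos := hH0, nz := fun m hm => ne_zero_of_gcd (hprim m hm), neg_mem := hneg,
      conj_c := fun m hm => hconj₀ m (hsub m hm), c_ne := hcne, energy := hsum.le.trans hhigh₀,
      kpos := hκ0, ksmall := by linarith,
      dvd_v := fun m hm => dvd_mul_of_dvd_left (dvd_prod_of_mem (fun m => (dot V.v m).natAbs) hm) _
      dvd_perp := fun m hm m' hm' h1 h2 => by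
        have h0 := V.perp_ne m hm m' hm' h1 h2
        refine dvd_mul_of_dvd_right (dvd_trans ?_ (dvd_prod_of_mem _ hm)) _
        refine dvd_trans ?_ (dvd_prod_of_mem _ hm')
        rw [if_neg h0]
      P := P }
  have : NeZero (2 * H * B) := ⟨K.R_pos.ne'⟩
  have hcount := good_card hB0 hH0 S hprim V.v Dm fun m hm i => by
    refine Nat.mul_le_mul_left 2 ?_
    exact le_trans (single_le_sum (f := fun i => (m i).natAbs) (fun _ _ => Nat.zero_le _)
      (mem_univ i)) (single_le_sum (f := fun m : Fin d → ℤ => ∑ i, (m i).natAbs)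
        (fun _ _ => Nat.zero_le _) hm)
  refine K.tiling ε hprim hbd hκ2 hε (1 - 2 * κ) (1 - ε₀) ?_
    (hlow₀.trans hsum.ge) ?_ ?_
  · refine le_trans ?_ hcount
    refine mul_le_mul_of_nonneg_right ?_ (Nat.cast_nonneg _)
    linarith
  · show 1 ≤ 2 * ((1 - κ * 3) * (1 - ε₀))
    nlinarith
  · show (1 - 2 * κ) + 2 - 2 * (1 - 2 * κ) * ((1 - κ * 3) * (1 - ε₀)) ≤ 1 + ε
    nlinarith [mul_nonneg hκ0.le he.le, mul_nonneg hκ0.le hκ0.le,
      mul_nonneg (mul_nonneg hκ0.le hκ0.le) he.le]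

end Vale.Agent.P110.UF.Pack

namespace Vale.Agent.P110.UF

/-- The packing module. -/
theorem tiling_stmt (h : BlockStmt) : TilingStmt := Pack.tiling_stmt h

end Vale.Agent.P110.UF
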