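import Mathlib

/-!
# P110: the moduli of the packing

Block `t` has a modulus `P t`, block `t` and vector `m` a modulus `Q t m`.  All are of the form
`M * i + 1` with distinct small `i`, so they are pairwise coprime and avoid every divisor of `M`.
-/

open Finset

namespace Vale.Agent.P110.UF.Pack

variable {σ : Type} [Fintype σ]

/-- The moduli with their properties; `B` is the width of a block, `H` half the number of blocks,
`mu` the multiplicity. -/
structure Params (n : σ → ℕ) (cs : σ → ℝ) (κ : ℝ) (d D B H : ℕ) where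
  mu : ℕ
  md : Fin H ⊕ (Fin H × σ) → ℕ
  mu_pos : 0 < mu
  md_odd : ∀ q, Odd (md q)
  md_cop : ∀ q q', q ≠ q' → Nat.Coprime (md q) (md q')
  md_R : ∀ q, Nat.Coprime (md q) (2 * H * B)
  md_D : ∀ q, Nat.Coprime (md q) D
  ratio : ∀ t m,
    (1 - κ * 3) * (cs m * md (Sum.inl t) * md (Sum.inr (t, m))) ≤
        n m * ((mu * (2 * H * B) ^ (d - 1) : ℕ) : ℝ) ∧
      (n m * ((mu * (2 * H * B) ^ (d - 1) : ℕ) : ℝ)) ≤
        (1 - κ) * (cs m * md (Sum.inl t) * md (Sum.inr (t, m)))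
  room : ∀ t, ((∑ m, n m : ℕ) : ℝ) ≤ κ * md (Sum.inl t)

lemma coprime_dvd {M x : ℕ} (h : x ∣ M) (i : ℕ) : Nat.Coprime (M * i + 1) x := by
  obtain ⟨y, rfl⟩ := h
  rw [mul_assoc, Nat.coprime_mul_left_add_left]
  exact Nat.coprime_one_left x

lemma coprime_ap {M U i j : ℕ} (hM : U.factorial ∣ M) (hj : j ≤ U) (hij : i < j) :
    Nat.Coprime (M * i + 1) (M * j + 1) := by
  refine Nat.coprime_of_dvd fun p hp h1 h2 => ?_
  have h3 : p ∣ M * (j - i) := by
    have := Nat.dvd_sub h2 h1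
    rwa [Nat.add_sub_add_right, ← Nat.mul_sub] at this
  have h4 : p ∣ M := by
    rcases hp.dvd_mul.1 h3 with h | h
    · exact h
    · exact (h.trans (Nat.dvd_factorial (by omega) (by omega))).trans hM
  exact hp.not_dvd_one ((Nat.dvd_add_right (dvd_mul_of_dvd_left h4 i)).1 h1)

/-- The real inequalities behind the choice of the large moduli. -/
lemma ratio_core {κ c P M K H G n C e Z a : ℝ} (hκ : 0 < κ) (hκ1 : κ ≤ 1 / 4) (hc : 0 < c)
    (hc1 : c ≤ 1) (hP : 0 < P) (hP1 : P ≤ M * (H + 2)) (hM : 1 ≤ M) (hK : 1 ≤ K) (hH : 0 ≤ H)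
    (hG : 1 ≤ G) (hn : 1 ≤ n) (he0 : 0 ≤ e) (he : e + 1 ≤ K)
    (hZ : K * (H + 3) * (H + 2) ≤ κ * Z) (ha : a * (c * P) = n * (M * M * Z * G))
    (hC1 : a / (M * (1 - κ) * K) ≤ C) (hC2 : C ≤ a / (M * (1 - κ) * K) + 1) :
    (1 - κ * 3) * (c * P * (M * (K * (C + H) + e + 1) + 1)) ≤ a * (c * P) ∧
      a * (c * P) ≤ (1 - κ) * (c * P * (M * (K * (C + H) + e + 1) + 1)) := by
  have hκ' : 0 < 1 - κ := by linarith
  have hden : 0 < M * (1 - κ) * K := by positivity
  rw [div_le_iff₀ hden] at hC1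
  rw [← sub_le_iff_le_add, le_div_iff₀ hden] at hC2
  have hZ0 : 0 ≤ κ * Z := le_trans (by positivity) hZ
  have hbig : M * (K * (H + 3)) * (c * P) ≤ κ * (a * (c * P)) := by
    rw [ha]
    calc M * (K * (H + 3)) * (c * P) ≤ M * (K * (H + 3)) * (1 * (M * (H + 2))) :=
          mul_le_mul_of_nonneg_left (mul_le_mul hc1 hP1 hP.le zero_le_one) (by positivity)
      _ = M * M * (K * (H + 3) * (H + 2)) := by ring
      _ ≤ M * M * (κ * Z) := mul_le_mul_of_nonneg_left hZ (by positivity)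
      _ = (M * M * (κ * Z)) * (1 * 1) := by ring
      _ ≤ (M * M * (κ * Z)) * (n * G) :=
          mul_le_mul_of_nonneg_left (mul_le_mul hn hG zero_le_one (by linarith)) (by positivity)
      _ = κ * (n * (M * M * Z * G)) := by ring
  have hb : M * (K * (H + 3)) ≤ κ * a :=
    le_of_mul_le_mul_right (by linarith [hbig]) (mul_pos hc hP)
  have h6 : M * e + M + 1 ≤ 2 * (M * K) := by
    nlinarith [mul_le_mul_of_nonneg_left he (zero_le_one.trans hM)]
  set Q := M * (K * (C + H) + e + 1) + 1 with hQ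
  have h8 : 0 ≤ M * (K * H) + M * e + M + 1 := by positivity
  have h9 : 0 ≤ (M * (K * H) + M * e + M + 1) * (1 - κ) := mul_nonneg h8 hκ'.le
  have hlo : a ≤ (1 - κ) * Q := by nlinarith
  have h10 : (M * (K * H) + M * e + M + 1 + M * K) * (1 - κ) ≤ M * (K * (H + 3)) :=
    le_trans (mul_le_of_le_one_right (by positivity) (by linarith)) (by linarith)
  have hhi : (1 - κ) * Q ≤ a + κ * a := by nlinarith
  have h7 : (1 - κ * 3) * Q ≤ a := by
    nlinarith [mul_le_mul_of_nonneg_left hhi hκ.le, mul_nonneg hκ.le hκ.le]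
  constructor
  · nlinarith [mul_le_mul_of_nonneg_right h7 (mul_pos hc hP).le]
  · nlinarith [mul_le_mul_of_nonneg_right hlo (mul_pos hc hP).le]

variable [Nonempty σ]

theorem params_exist (n : σ → ℕ) (cs : σ → ℝ) (κ : ℝ) (d D B H : ℕ) (hn : ∀ m, 0 < n m)
    (hc : ∀ m, 0 < cs m) (hc1 : ∀ m, cs m ≤ 1) (hκ : 0 < κ) (hκ1 : κ ≤ 1 / 4) (hB : 0 < B)
    (hH : 0 < H) (hD : 0 < D) : Nonempty (Params n cs κ d D B H) := by
  classical
  set R : ℕ := 2 * H * B with hR
  have hR0 : 0 < R := by positivity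
  set K : ℕ := Fintype.card (Fin H × σ) with hK
  have : Nonempty (Fin H) := ⟨⟨0, hH⟩⟩
  have hK0 : 0 < K := Fintype.card_pos
  let e := Fintype.equivFin (Fin H × σ)
  set G : ℕ := R ^ (d - 1) with hG
  have hG0 : 0 < G := by positivity
  obtain ⟨Z, hZ⟩ := exists_nat_ge (((K * (H + 3) * (H + 2) : ℕ) : ℝ) / κ + 1)
  have hZ1 : (1 : ℝ) ≤ Z := le_trans (by
    have : (0 : ℝ) ≤ ((K * (H + 3) * (H + 2) : ℕ) : ℝ) / κ := by positivity
    linarith) hZ
  have hZ2 : ((K * (H + 3) * (H + 2) : ℕ) : ℝ) ≤ κ * Z := by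
    rw [← div_le_iff₀' hκ]; linarith
  let up : σ → ℕ := fun m => ⌈(n m : ℝ) * Z * G / (cs m * (1 - κ) * K)⌉₊
  set U : ℕ := K * (∑ m, up m + H) + K + H with hU
  obtain ⟨W, hW⟩ := exists_nat_ge (((∑ m, n m : ℕ) : ℝ) / κ + 1)
  set M : ℕ := 2 * R * U.factorial * D * W with hM
  have hW0 : 0 < W := by
    have : (1 : ℝ) ≤ W := le_trans (by
      have : (0 : ℝ) ≤ ((∑ m, n m : ℕ) : ℝ) / κ := by positivity
      linarith) hW
    exact_mod_cast this
  have hM0 : 0 < M := by positivity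
  have hMR : (0 : ℝ) < M := Nat.cast_pos.2 hM0
  set mu : ℕ := M * M * Z with hmu
  let Pi : Fin H → ℕ := fun t => M * ((t : ℕ) + 1) + 1
  let X : Fin H → σ → ℝ := fun t m => (n m : ℝ) * ((mu * G : ℕ) : ℝ) / (cs m * Pi t)
  let iQ : Fin H → σ → ℕ := fun t m =>
    K * (⌈X t m / (M * (1 - κ) * K)⌉₊ + H) + (e (t, m) : ℕ) + 1
  let ix : Fin H ⊕ (Fin H × σ) → ℕ := Sum.elim (fun t => (t : ℕ) + 1) fun x => iQ x.1 x.2
  have hPpos : ∀ t, (0 : ℝ) < Pi t := fun t => by positivity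
  have hκ' : (0 : ℝ) < 1 - κ := by linarith
  have hXup : ∀ t m, X t m / (M * (1 - κ) * K) ≤ (n m : ℝ) * Z * G / (cs m * (1 - κ) * K) := by
    intro t m
    have h1 : (M : ℝ) ≤ Pi t := by
      exact_mod_cast le_add_right (Nat.le_mul_of_pos_right M (Nat.succ_pos _))
    simp only [X, hmu, Nat.cast_mul]
    rw [div_div, div_le_div_iff₀ (by have := hc m; positivity) (by have := hc m; positivity)]
    have h2 : (0 : ℝ) ≤ (n m : ℝ) * M * Z * G * cs m * (1 - κ) * K := by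
      have := hc m; positivity
    nlinarith [mul_le_mul_of_nonneg_left h1 h2]
  have hixU : ∀ q, ix q ≤ U := by
    rintro (t | ⟨t, m⟩)
    · have := t.isLt
      simp only [ix, Sum.elim_inl, hU]
      omega
    · simp only [ix, Sum.elim_inr, iQ, hU]
      have h1 : ⌈X t m / (M * (1 - κ) * K)⌉₊ ≤ ∑ m, up m :=
        (Nat.ceil_mono (hXup t m)).trans (single_le_sum (f := up) (fun _ _ => Nat.zero_le _) (mem_univ m))
      have h2 : (e (t, m) : ℕ) < K := (e (t, m)).isLt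
      have h3 : K * (⌈X t m / (M * (1 - κ) * K)⌉₊ + H) ≤ K * (∑ m, up m + H) :=
        Nat.mul_le_mul_left _ (Nat.add_le_add_right h1 _)
      omega
  have hQH : ∀ x : Fin H × σ, H < ix (Sum.inr x) := fun x => by
    simp only [ix, Sum.elim_inr, iQ]
    have : H ≤ K * (⌈X x.1 x.2 / (M * (1 - κ) * K)⌉₊ + H) :=
      le_trans (Nat.le_add_left H _) (Nat.le_mul_of_pos_left _ hK0)
    omega
  have hinj : Function.Injective ix := by
    rintro (t | x) (t' | x') h
    · simp only [ix, Sum.elim_inl] at h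
      exact congrArg _ (Fin.ext (by omega))
    · have h1 := hQH x'
      rw [← h] at h1
      have := t.isLt
      simp only [ix, Sum.elim_inl] at h1
      omega
    · have h1 := hQH x
      rw [h] at h1
      have := t'.isLt
      simp only [ix, Sum.elim_inl] at h1
      omega
    · simp only [ix, Sum.elim_inr, iQ] at h
      have h2 := congrArg (· % K) (Nat.succ_injective h)
      simp only [Nat.mul_add_mod] at h2
      rw [Nat.mod_eq_of_lt (e _).isLt, Nat.mod_eq_of_lt (e _).isLt] at h2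
      exact congrArg _ (e.injective (Fin.ext h2))
  have hUM : U.factorial ∣ M := ⟨2 * R * D * W, by rw [hM]; ring⟩
  refine ⟨{ mu := mu, md := fun q => M * ix q + 1
            mu_pos := by
              have : 0 < Z := by exact_mod_cast lt_of_lt_of_le one_pos hZ1
              positivity
            md_odd := fun q => ⟨R * U.factorial * D * W * ix q, by rw [hM]; ring⟩
            md_cop := fun q q' hne => ?_
            md_R := fun q => coprime_dvd ⟨2 * U.factorial * D * W, by rw [hM, hR]; ring⟩ _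
            md_D := fun q => coprime_dvd ⟨2 * R * U.factorial * W, by rw [hM]; ring⟩ _
            ratio := fun t m => ?_, room := fun t => ?_ }⟩
  · rcases lt_or_gt_of_ne (hinj.ne hne) with h | h
    · exact coprime_ap hUM (hixU q') h
    · exact (coprime_ap hUM (hixU q) h).symm
  · have hn1 : (1 : ℝ) ≤ n m := by exact_mod_cast hn m
    have hM1 : (1 : ℝ) ≤ M := by exact_mod_cast hM0
    have hK1 : (1 : ℝ) ≤ K := by exact_mod_cast hK0
    have hG1 : (1 : ℝ) ≤ G := by exact_mod_cast hG0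
    have hP : (Pi t : ℝ) ≤ (M : ℝ) * ((H : ℝ) + 2) := by
      have h1 : (t : ℕ) + 1 ≤ H := t.isLt
      have h1' : ((t : ℕ) : ℝ) + 1 ≤ H := by exact_mod_cast h1
      simp only [Pi, Nat.cast_add, Nat.cast_mul, Nat.cast_one]
      nlinarith [mul_le_mul_of_nonneg_left h1' hMR.le]
    have he : ((e (t, m) : ℕ) : ℝ) + 1 ≤ K := by exact_mod_cast (e (t, m)).isLt
    have hZ3 : (K : ℝ) * ((H : ℝ) + 3) * ((H : ℝ) + 2) ≤ κ * Z := by exact_mod_cast hZ2
    have hval : (n m : ℝ) * ((mu * G : ℕ) : ℝ) = X t m * (cs m * Pi t) := by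
      have := hc m
      simp only [X]
      rw [div_mul_cancel₀ _ (by positivity)]
    have hmuR : ((mu * G : ℕ) : ℝ) = (M : ℝ) * M * Z * G := by
      rw [hmu]; push_cast; ring
    have hcore := ratio_core (C := (⌈X t m / (M * (1 - κ) * K)⌉₊ : ℝ)) hκ hκ1 (hc m) (hc1 m)
      (hPpos t) hP hM1 hK1 (Nat.cast_nonneg H) hG1 hn1 (Nat.cast_nonneg _) he hZ3
      (hval.symm.trans (by rw [hmuR])) (Nat.le_ceil _)
      (Nat.ceil_lt_add_one (by have := hc m; simp only [X]; positivity)).le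
    show (1 - κ * 3) * (cs m * ((Pi t : ℕ) : ℝ) * ((M * ix (Sum.inr (t, m)) + 1 : ℕ) : ℝ)) ≤
        (n m : ℝ) * ((mu * G : ℕ) : ℝ) ∧
      (n m : ℝ) * ((mu * G : ℕ) : ℝ) ≤
        (1 - κ) * (cs m * ((Pi t : ℕ) : ℝ) * ((M * ix (Sum.inr (t, m)) + 1 : ℕ) : ℝ))
    have hQ : ((M * ix (Sum.inr (t, m)) + 1 : ℕ) : ℝ) =
        (M : ℝ) * ((K : ℝ) * ((⌈X t m / (M * (1 - κ) * K)⌉₊ : ℝ) + H) + (e (t, m) : ℕ) + 1) + 1 := by
      simp only [ix, Sum.elim_inr, iQ, Nat.cast_add, Nat.cast_mul, Nat.cast_one]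
    rw [hval, hQ]
    exact hcore
  · show ((∑ m, n m : ℕ) : ℝ) ≤ κ * ((M * ((t : ℕ) + 1) + 1 : ℕ) : ℝ)
    rw [← div_le_iff₀' hκ]
    refine le_trans (le_trans (le_add_of_nonneg_right zero_le_one) hW) ?_
    exact_mod_cast le_trans (Nat.le_mul_of_pos_left W (show 0 < 2 * R * U.factorial * D by positivity))
      (le_add_right (Nat.le_mul_of_pos_right M (Nat.succ_pos _)))

end Vale.Agent.P110.UF.Pack
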