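import Vale.Agent.P110.UF.Pack.Vectors

/-!
# P110: pieces of the packing and their positions
-/

open Finset

namespace Vale.Agent.P110.UF.Pack

variable {d : ℕ}

/-- The value of the form `m` at `w` modulo `R`. -/
def lin (R : ℕ) (m : Fin d → ℤ) (w : Fin d → ZMod R) : ZMod R := ∑ i, (m i : ZMod R) * w i

/-- The sweep length of `m`. -/
def swp (v m : Fin d → ℤ) : ℕ := (dot v m).natAbs

/-- The offset between the lower end of an interval and its starting frequency. -/
def shiftOf (v m : Fin d → ℤ) : ℕ := if dot v m < 0 then swp v m else 0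

/-- The lower end modulo `R` of the intervals of `m` in the piece `w`. -/
def pos (R : ℕ) (v m : Fin d → ℤ) (w : Fin d → ZMod R) : ℕ :=
  (lin R m w - (shiftOf v m : ZMod R)).val

/-- The piece keeps every interval inside a block, different vectors in different blocks. -/
def Good (B H : ℕ) (S : Finset (Fin d → ℤ)) (v : Fin d → ℤ) (w : Fin d → ZMod (2 * H * B)) : Prop :=
  (∀ m ∈ S, pos (2 * H * B) v m w % B + swp v m ≤ B) ∧
    Set.InjOn (fun m => pos (2 * H * B) v m w / B) (S : Set (Fin d → ℤ))

end Vale.Agent.P110.UF.Pack
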