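import Vale.Agent.P110.UF.Pack.Pieces
import Vale.Agent.P110.UF.Pack.Params

/-!
# P110: elementary facts about positions
-/

open Finset

namespace Vale.Agent.P110.UF.Pack

variable {d B H R : ℕ} {S : Finset (Fin d → ℤ)} {v : Fin d → ℤ} {w : Fin d → ZMod (2 * H * B)}

lemma swp_neg (v m : Fin d → ℤ) : swp v (-m) = swp v m := by
  simp [swp, dot_neg_right]

lemma swp_pos {v m : Fin d → ℤ} (h : dot v m ≠ 0) : 0 < swp v m := Int.natAbs_pos.2 h

lemma lin_neg (R : ℕ) (m : Fin d → ℤ) (w : Fin d → ZMod R) : lin R (-m) w = -lin R m w := by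
  simp [lin, sum_neg_distrib]

lemma shift_add_shift_neg {v m : Fin d → ℤ} (h : dot v m ≠ 0) :
    shiftOf v m + shiftOf v (-m) = swp v m := by
  simp only [shiftOf, swp_neg, dot_neg_right]
  split_ifs <;> omega

lemma dot_eq_sign {v m : Fin d → ℤ} :
    dot v m = if dot v m < 0 then -(swp v m : ℤ) else (swp v m : ℤ) := by
  simp only [swp]
  split_ifs <;> omega

lemma pos_lt [NeZero R] (m : Fin d → ℤ) (w : Fin d → ZMod R) : pos R v m w < R := ZMod.val_lt _

lemma pos_cast [NeZero R] (v m : Fin d → ℤ) (w : Fin d → ZMod R) :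
    (pos R v m w : ZMod R) + (shiftOf v m : ZMod R) = lin R m w := by
  rw [pos, ZMod.natCast_zmod_val, sub_add_cancel]

/-- An interval lying in a block. -/
lemma block_bound {B H p n : ℕ} (hp : p < 2 * H * B) (hf : p % B + n ≤ B) :
    p / B < 2 * H ∧ p + n ≤ (p / B + 1) * B ∧ p + n ≤ 2 * H * B := by
  have hB : 0 < B := by
    rcases Nat.eq_zero_or_pos B with h | h
    · simp [h] at hp
    · exact h
  have h1 := Nat.div_add_mod p B
  have h2 : p / B < 2 * H := Nat.div_lt_of_lt_mul (by rwa [mul_comm B])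
  have h3 : p + n ≤ (p / B + 1) * B := by rw [add_mul, mul_comm (p / B) B]; omega
  exact ⟨h2, h3, h3.trans (Nat.mul_le_mul_right B h2)⟩

lemma div_eq_of_in_block {B p n δ : ℕ} (hf : p % B + n ≤ B) (hδ : δ < n) :
    (p + δ) / B = p / B := by
  rcases Nat.eq_zero_or_pos B with rfl | hB
  · simp
  · rw [Nat.add_div hB, Nat.div_eq_of_lt (show δ < B by omega),
      if_neg (by rw [Nat.mod_eq_of_lt (show δ < B by omega)]; omega)]
    rfl

variable [NeZero (2 * H * B)]

lemma pos_neg (hg : Good B H S v w) {m : Fin d → ℤ} (hm : m ∈ S) (hv : dot v m ≠ 0) :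
    pos (2 * H * B) v (-m) w + pos (2 * H * B) v m w + swp v m = 2 * H * B := by
  obtain ⟨-, -, h3⟩ := block_bound (pos_lt m w) (hg.1 m hm)
  have hn := swp_pos hv
  have key : (((2 * H * B - pos (2 * H * B) v m w - swp v m : ℕ)) : ZMod (2 * H * B)) =
      lin (2 * H * B) (-m) w - (shiftOf v (-m) : ZMod (2 * H * B)) := by
    rw [Nat.cast_sub (by omega), Nat.cast_sub (by omega), ZMod.natCast_self, lin_neg,
      ← pos_cast v m w, ← shift_add_shift_neg hv, Nat.cast_add]
    ring
  have : pos (2 * H * B) v (-m) w = 2 * H * B - pos (2 * H * B) v m w - swp v m := by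
    rw [pos, ← key, ZMod.val_natCast, Nat.mod_eq_of_lt (by omega)]
  omega

lemma blk_neg (hg : Good B H S v w) {m : Fin d → ℤ} (hm : m ∈ S) (hv : dot v m ≠ 0) :
    pos (2 * H * B) v (-m) w / B + pos (2 * H * B) v m w / B + 1 = 2 * H := by
  have h := pos_neg hg hm hv
  have hn := swp_pos hv
  have hf := hg.1 m hm
  have hB : 0 < B := by omega
  obtain ⟨h2, h3, -⟩ := block_bound (pos_lt (v := v) m w) hf
  set p := pos (2 * H * B) v m w with hp
  have hd := Nat.div_add_mod p B
  have e : pos (2 * H * B) v (-m) w = (B - p % B - swp v m) + B * (2 * H - p / B - 1) := by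
    have : B * (2 * H - p / B - 1) + B * (p / B) + B = 2 * H * B := by
      rw [← mul_add, ← Nat.mul_succ, show (2 * H - p / B - 1 + p / B).succ = 2 * H by omega,
        mul_comm]
    omega
  rw [e, Nat.add_mul_div_left _ _ hB, Nat.div_eq_of_lt (by omega)]
  omega

end Vale.Agent.P110.UF.Pack
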