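import Vale.Agent.P110.UF.Pack.Cells
import Vale.Agent.P110.UF.Pack.Gauss
import Vale.Agent.P110.UF.Pack.Assemble

/-!
# P110: the signal of a piece
-/

open Finset
open scoped Classical ComplexConjugate

namespace Vale.Agent.P110.UF.Pack

lemma ex_add (x y : ℝ) : ex (x + y) = ex x * ex y := by
  rw [ex, ex, ex, ← Complex.exp_add]; congr 1; push_cast; ring

lemma ex_conj (x : ℝ) : conj (ex x) = ex (-x) := by
  rw [ex, ex, ← Complex.exp_conj]
  simp [Complex.conj_ofReal, map_ofNat]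

lemma ex_int (k : ℤ) : ex k = 1 := by
  rw [ex, ← Complex.exp_int_mul_two_pi_mul_I k]
  congr 1; push_cast; ring

/-- Sums over a period are shift invariant. -/
lemma sum_shift {L : ℕ} (h : ℕ → ℂ) (hp : ∀ a, h (a + L) = h a) (s : ℕ) :
    ∑ x ∈ range L, h (x + s) = ∑ x ∈ range L, h x := by
  induction s with
  | zero => rfl
  | succ s ih =>
      rw [← ih]
      have h1 := sum_range_succ (fun x => h (x + s)) L
      have h2 := sum_range_succ' (fun x => h (x + s)) L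
      have h3 : h (L + s) = h (0 + s) := by rw [add_comm, hp, zero_add]
      simp only [show ∀ x, x + 1 + s = x + (s + 1) by intros; omega] at h2
      rw [h1, h3] at h2
      exact (add_right_cancel h2).symm

namespace Cfg

variable (K : Cfg)

/-- The energy correction of a coefficient. -/
noncomputable def lam (j : K.Piece) (m : K.Vec) : ℝ :=
  (K.n m : ℝ) * K.K1 / (‖K.c m.1‖ ^ 2 * K.mP j m * K.mQ j m)

lemma cs_pos (m : K.Vec) : 0 < ‖K.c m.1‖ ^ 2 := pow_pos (norm_pos_iff.2 (K.c_ne _ m.2)) 2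

lemma cs_neg (m : K.Vec) : ‖K.c (K.neg m).1‖ = ‖K.c m.1‖ := by
  rw [show (K.neg m).1 = -m.1 from rfl, K.conj_c _ m.2, Complex.norm_conj]

lemma cs_rep (j : K.Piece) (m : K.Vec) : ‖K.c (K.rep j m).1‖ = ‖K.c m.1‖ := by
  rcases K.rep_eq j m with h | h <;> rw [h]
  exact K.cs_neg m

lemma lam_bounds (j : K.Piece) (m : K.Vec) :
    1 - K.κ * 3 ≤ K.lam j m ∧ K.lam j m ≤ 1 - K.κ := by
  obtain ⟨h1, h2⟩ := K.P.ratio (K.slot j m) (K.rep j m)
  simp only [show swp K.V.v (K.rep j m).1 = K.n m from K.n_rep j m, K.cs_rep] at h1 h2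
  have hpos : 0 < ‖K.c m.1‖ ^ 2 * K.mP j m * K.mQ j m :=
    mul_pos (mul_pos (K.cs_pos m) (Nat.cast_pos.2 (K.md_pos _))) (Nat.cast_pos.2 (K.md_pos _))
  rw [lam, le_div_iff₀ hpos, div_le_iff₀ hpos]
  exact ⟨h1, h2⟩

lemma lam_neg (j : K.Piece) (m : K.Vec) : K.lam j (K.neg m) = K.lam j m := by
  simp only [lam, K.n_neg, K.cs_neg, mP, mQ, slot, K.rep_neg]

lemma lam_identity (j : K.Piece) (m : K.Vec) :
    K.lam j m * ‖K.c m.1‖ ^ 2 * K.O j m = (K.n m : ℝ) * K.J0 := by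
  have hpos : ‖K.c m.1‖ ^ 2 * K.mP j m * K.mQ j m ≠ 0 := (mul_pos (mul_pos (K.cs_pos m)
    (Nat.cast_pos.2 (K.md_pos _))) (Nat.cast_pos.2 (K.md_pos _))).ne'
  rw [lam, O, J0_eq]
  push_cast
  rw [div_mul_eq_mul_div, div_mul_eq_mul_div, div_eq_iff hpos]
  ring

/-- The coefficient of an interval. -/
noncomputable def cf (j : K.Piece) (p : K.Vec × ℕ) : ℂ :=
  ((Real.sqrt (K.lam j p.1) : ℝ) : ℂ) * K.c p.1.1 *
    quadDFT K.L (dot (K.Avec j) p.1.1) (dot (K.Gvec j) p.1.1) ((p.2 + K.sh p.1 : ℕ) : ℤ)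

lemma norm_cf {j : K.Piece} {p : K.Vec × ℕ} (hp : p ∈ K.items j) :
    ‖K.cf j p‖ ^ 2 = (K.n p.1 : ℝ) * K.J0 / K.L := by
  obtain ⟨α, hα, hco⟩ := K.alpha j p.1
  have hl : 0 ≤ K.lam j p.1 := by linarith [(K.lam_bounds j p.1).1, K.ksmall]
  have hflat := (quad_stmt K.L K.L_pos).flat (K.O j p.1) (K.teeth j p.1) α
    (dot (K.Gvec j) p.1.1) ((p.2 + K.sh p.1 : ℕ) : ℤ) (K.L_eq j p.1) (K.teeth_odd j p.1) hco
  rw [← hα, if_pos] at hflat
  · rw [cf, norm_mul, norm_mul, mul_pow, mul_pow, hflat, Complex.norm_real, Real.norm_eq_abs,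
      sq_abs, Real.sq_sqrt hl, ← K.lam_identity j p.1]
    ring
  · have h2 := (mem_filter.1 ((K.mem_items).1 hp)).2
    rw [show dot (K.Gvec j) p.1.1 - ((p.2 + K.sh p.1 : ℕ) : ℤ) = -((p.2 : ℤ) - K.lo j p.1) by
      simp only [lo]; push_cast; ring]
    exact h2.neg_right

/-- The term of an interval in the signal. -/
noncomputable def term (j : K.Piece) (k : ℤ) (u : ℝ) (p : K.Vec × ℕ) : ℂ :=
  K.cf j p * ex ((((p.2 + K.sh p.1 : ℕ) : ℝ) * k + (dot K.V.v p.1.1 : ℝ) * u) / K.L)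

lemma term_mirror {j : K.Piece} (k : ℤ) (u : ℝ) {p : K.Vec × ℕ} (hp : p ∈ K.items j) :
    K.term j k u (K.mirror p) = conj (K.term j k u p) := by
  have hend := K.comb_end ((K.mem_items).1 hp)
  have hs := K.sh_add p.1
  have ha : ((K.mirror p).2 + K.sh (K.mirror p).1 : ℕ) + (p.2 + K.sh p.1) = K.L := by
    show (K.L - p.2 - K.n p.1 + K.sh (K.neg p.1)) + (p.2 + K.sh p.1) = K.L
    omega
  have hq := quad_stmt K.L K.L_pos
  have hL : (K.L : ℝ) ≠ 0 := Nat.cast_ne_zero.2 K.L_pos.ne'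
  have haZ : (((K.mirror p).2 + K.sh (K.mirror p).1 : ℕ) : ℤ) =
      (K.L : ℤ) - ((p.2 + K.sh p.1 : ℕ) : ℤ) := by omega
  have haR : (((K.mirror p).2 + K.sh (K.mirror p).1 : ℕ) : ℝ) =
      (K.L : ℝ) - ((p.2 + K.sh p.1 : ℕ) : ℝ) := by exact_mod_cast haZ
  rw [term, term, map_mul, cf, cf, map_mul, map_mul, haZ, haR, Complex.conj_ofReal]
  simp only [mirror, K.lam_neg, show (K.neg p.1).1 = -p.1.1 from rfl, dot_neg_right,
    K.conj_c _ p.1.2]
  rw [hq.congr _ _ _ (-((p.2 + K.sh p.1 : ℕ) : ℤ)) ⟨1, by ring⟩, hq.conjugate, ex_conj]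
  congr 1
  rw [show ((K.L : ℝ) - ((p.2 + K.sh p.1 : ℕ) : ℝ)) * k + ((-dot K.V.v p.1.1 : ℤ) : ℝ) * u =
      (k : ℝ) * K.L + -(((p.2 + K.sh p.1 : ℕ) : ℝ) * k + (dot K.V.v p.1.1 : ℝ) * u) by
    push_cast; ring, add_div, mul_div_assoc, div_self hL, mul_one, ex_add, ex_int, one_mul,
    neg_div]

/-- The torus point of a time. -/
noncomputable def theta (j : K.Piece) (k : ℤ) (u : ℝ) (i : Fin K.d) : ℝ :=
  ((K.Avec j i : ℝ) * k ^ 2 + (K.Gvec j i : ℝ) * k + (K.V.v i : ℝ) * u) / K.L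

lemma sum_comb (j : K.Piece) (m : K.Vec) (k : ℤ) (u : ℝ) :
    ∑ x ∈ K.comb j m, K.term j k u (m, x) =
      ((Real.sqrt (K.lam j m) : ℝ) : ℂ) * K.c m.1 *
        ex (∑ i, (m.1 i : ℝ) * K.theta j k u i) := by
  have hL : (K.L : ℝ) ≠ 0 := Nat.cast_ne_zero.2 K.L_pos.ne'
  have hq := quad_stmt K.L K.L_pos
  set h : ℕ → ℂ := fun a => quadDFT K.L (dot (K.Avec j) m.1) (dot (K.Gvec j) m.1) (a : ℤ) *
    ex (((a : ℤ) * k : ℤ) / (K.L : ℝ)) with hh
  have hper : ∀ a, h (a + K.L) = h a := by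
    intro a
    simp only [hh]
    rw [hq.congr _ _ ((a + K.L : ℕ) : ℤ) (a : ℤ) ⟨1, by push_cast; ring⟩]
    congr 1
    push_cast
    rw [add_mul, add_div, mul_div_cancel_left₀ _ hL, ex_add, ex_int, mul_one]
  have hsum : ∑ x ∈ K.comb j m, h (x + K.sh m) =
      ex (((dot (K.Avec j) m.1 * k ^ 2 + dot (K.Gvec j) m.1 * k : ℤ) : ℝ) / K.L) := by
    rw [← hq.inversion, ← sum_shift h hper (K.sh m)]
    refine sum_subset (filter_subset _ _) fun x hx hx' => ?_
    obtain ⟨α, hα, hco⟩ := K.alpha j m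
    have hflat := hq.flat (K.O j m) (K.teeth j m) α (dot (K.Gvec j) m.1)
      ((x + K.sh m : ℕ) : ℤ) (K.L_eq j m) (K.teeth_odd j m) hco
    rw [← hα, if_neg] at hflat
    · simp only [hh]
      rw [norm_eq_zero.1 (sq_eq_zero_iff.1 hflat), zero_mul]
    · intro h0
      refine hx' (mem_filter.2 ⟨hx, ?_⟩)
      rw [show (x : ℤ) - K.lo j m = -(dot (K.Gvec j) m.1 - ((x + K.sh m : ℕ) : ℤ)) by
        simp only [lo]; push_cast; ring]
      exact h0.neg_right
  have hθ : ∑ i, (m.1 i : ℝ) * K.theta j k u i =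
      ((dot (K.Avec j) m.1 * k ^ 2 + dot (K.Gvec j) m.1 * k : ℤ) : ℝ) / K.L +
        (dot K.V.v m.1 : ℝ) * u / K.L := by
    simp only [theta, dot]
    push_cast
    rw [← add_div]
    simp only [← mul_div_assoc, ← sum_div, sum_mul, ← sum_add_distrib]
    exact congrArg (· / (K.L : ℝ)) (sum_congr rfl fun i _ => by ring)
  rw [hθ, ex_add, ← hsum, sum_mul, mul_sum]
  refine sum_congr rfl fun x _ => ?_
  simp only [term, cf, hh]
  push_cast
  rw [add_div, ex_add]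
  ring

/-- The intervals of a piece in the lower half circle. -/
noncomputable def half (j : K.Piece) : Finset (K.Vec × ℕ) :=
  (K.items j).filter fun p => 2 * (p.2 + K.n p.1) ≤ K.L

lemma sum_items {β : Type*} [AddCommMonoid β] (j : K.Piece) (f : K.Vec × ℕ → β) :
    ∑ p ∈ K.items j, f p = ∑ m, ∑ x ∈ K.comb j m, f (m, x) := by
  rw [items, sum_filter, sum_product]
  refine sum_congr rfl fun m _ => ?_
  rw [← sum_filter]
  exact sum_congr (by ext x; simp only [mem_filter, comb]; tauto) fun _ _ => rfl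

lemma signal_bound (j : K.Piece) (k : ℤ) (u : ℝ)
    (hg : ∀ θ : Fin K.d → ℝ, ‖∑ m ∈ K.S, K.c m * ex (∑ i, (m i : ℝ) * θ i)‖ ≤ 1) :
    |2 * (∑ p ∈ K.half j, K.term j k u p).re| ≤ 1 + 3 * K.κ * #K.S := by
  have h := sum_fold (K.items j) K.mirror (fun p => 2 * (p.2 + K.n p.1) ≤ K.L) (K.term j k u)
    (fun p hp => K.mirror_mem hp) (fun p hp => K.mirror_mirror hp) (fun p hp => K.mirror_half hp)
    (fun p hp => K.term_mirror k u hp)
  rw [← Real.norm_eq_abs, ← Complex.norm_real]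
  refine le_trans (le_of_eq (congrArg _ (show _ = _ from h.symm))) ?_
  rw [K.sum_items j]
  simp only [K.sum_comb]
  set θ := K.theta j k u
  set e : K.Vec → ℂ := fun m => ex (∑ i, (m.1 i : ℝ) * θ i)
  have hsplit : ∑ m : K.Vec, ((Real.sqrt (K.lam j m) : ℝ) : ℂ) * K.c m.1 * e m =
      ∑ m : K.Vec, K.c m.1 * e m +
        ∑ m : K.Vec, ((Real.sqrt (K.lam j m) - 1 : ℝ) : ℂ) * (K.c m.1 * e m) := by
    rw [← sum_add_distrib]; exact sum_congr rfl fun m _ => by push_cast; ring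
  rw [hsplit]
  refine (norm_add_le _ _).trans (add_le_add ?_ ?_)
  · rw [sum_coe_sort K.S (fun m => K.c m * ex (∑ i, (m i : ℝ) * θ i))]
    exact hg θ
  · refine (norm_sum_le _ _).trans ((sum_le_card_nsmul univ _ (3 * K.κ) fun m _ => ?_).trans
      (le_of_eq ?_))
    · obtain ⟨h1, h2⟩ := K.lam_bounds j m
      have hk := K.ksmall
      have hk' := K.kpos
      have hl : 0 ≤ K.lam j m := by linarith
      have hs : |Real.sqrt (K.lam j m) - 1| ≤ 3 * K.κ := by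
        have hsq := Real.sq_sqrt hl
        have := Real.sqrt_nonneg (K.lam j m)
        rw [abs_le]
        constructor <;> nlinarith
      have hc1 : ‖K.c m.1‖ ≤ 1 := by
        have : ‖K.c m.1‖ ^ 2 ≤ 1 :=
          (single_le_sum (f := fun m => ‖K.c m‖ ^ 2) (fun i _ => by positivity) m.2).trans K.energy
        nlinarith [norm_nonneg (K.c m.1)]
      rw [norm_mul, norm_mul, norm_ex, Complex.norm_real, Real.norm_eq_abs, mul_one]
      exact le_trans (mul_le_of_le_one_right (abs_nonneg _) hc1) hs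
    · rw [card_univ, Fintype.card_coe, nsmul_eq_mul]; ring

lemma half_length (j : K.Piece) :
    2 * ∑ p ∈ K.half j, (K.n p.1 : ℝ) =
      (K.L : ℝ) / K.J0 * ∑ m : K.Vec, K.lam j m * ‖K.c m.1‖ ^ 2 := by
  have h := sum_fold (K.items j) K.mirror (fun p => 2 * (p.2 + K.n p.1) ≤ K.L)
    (fun p => (((K.n p.1 : ℝ)) : ℂ))
    (fun p hp => K.mirror_mem hp) (fun p hp => K.mirror_mirror hp) (fun p hp => K.mirror_half hp)
    (fun p _ => by simp only [mirror, K.n_neg, Complex.conj_ofReal])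
  rw [← Complex.ofReal_sum, ← Complex.ofReal_sum, Complex.ofReal_re, Complex.ofReal_inj,
    K.sum_items j] at h
  change 2 * ∑ p ∈ (K.items j).filter _, _ = _
  rw [← h, mul_sum]
  refine sum_congr rfl fun m _ => ?_
  simp only [sum_const, K.card_comb, nsmul_eq_mul]
  have hJ : (K.J0 : ℝ) ≠ 0 := Nat.cast_ne_zero.2 K.J0_pos.ne'
  rw [div_mul_eq_mul_div, eq_div_iff hJ]
  have e : (K.L : ℝ) = K.O j m * K.teeth j m := by exact_mod_cast K.L_eq j m
  rw [e]
  linear_combination -(K.teeth j m : ℝ) * K.lam_identity j m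

end Cfg

end Vale.Agent.P110.UF.Pack
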