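import Mathlib

/-!
# P110: integer vectors attached to a finite set of primitive frequency vectors
-/

open Finset

namespace Vale.Agent.P110.UF.Pack

variable {d : ℕ}

/-- The scalar product. -/
def dot (a m : Fin d → ℤ) : ℤ := ∑ i, a i * m i

lemma dot_neg_right (a m : Fin d → ℤ) : dot a (-m) = -dot a m := by
  simp [dot, sum_neg_distrib]

lemma dot_comm (a m : Fin d → ℤ) : dot a m = dot m a := by
  simp [dot, mul_comm]

lemma ne_zero_of_gcd {m : Fin d → ℤ} (h : Finset.univ.gcd m = 1) : m ≠ 0 := by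
  rintro rfl
  have h0 : Finset.univ.gcd (0 : Fin d → ℤ) = 0 := Finset.gcd_eq_zero_iff.2 fun _ _ => rfl
  rw [h0] at h
  exact zero_ne_one h

lemma dot_self_pos {m : Fin d → ℤ} (h : m ≠ 0) : 0 < dot m m := by
  obtain ⟨i, hi⟩ := Function.ne_iff.1 h
  exact lt_of_lt_of_le (mul_self_pos.2 hi)
    (single_le_sum (fun j _ => mul_self_nonneg (m j)) (mem_univ i))

lemma neg_ne_self {m : Fin d → ℤ} (h : m ≠ 0) : -m ≠ m := fun e => h <| by
  funext i
  have := congrFun e i
  simp only [Pi.neg_apply] at this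
  simp only [Pi.zero_apply]
  omega

/-- A vector orthogonal to none of finitely many nonzero vectors. -/
lemma avoid (T : Finset (Fin d → ℤ)) (hT : ∀ q ∈ T, q ≠ 0) :
    ∃ v : Fin d → ℤ, ∀ q ∈ T, dot v q ≠ 0 := by
  classical
  let p : (Fin d → ℤ) → Polynomial ℤ := fun q => ∑ i : Fin d, Polynomial.monomial i.1 (q i)
  have hcoeff : ∀ q (i : Fin d), (p q).coeff i = q i := by
    intro q i
    simp only [p, Polynomial.finsetSum_coeff, Polynomial.coeff_monomial]
    rw [sum_eq_single i (fun j _ hj => if_neg fun e => hj (Fin.ext e))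
      (fun h => absurd (mem_univ i) h), if_pos rfl]
  have hne : (∏ q ∈ T, p q) ≠ 0 := prod_ne_zero_iff.2 fun q hq e => hT q hq <| by
    funext i
    rw [← hcoeff q i, e, Polynomial.coeff_zero, Pi.zero_apply]
  obtain ⟨U, hU⟩ : ∃ U : ℤ, (∏ q ∈ T, p q).eval U ≠ 0 := by
    by_contra h
    push Not at h
    exact hne (Polynomial.funext (by simpa using h))
  refine ⟨fun i => U ^ (i : ℕ), fun q hq e => hU ?_⟩
  rw [Polynomial.eval_prod]
  refine prod_eq_zero hq ?_
  rw [← e]
  simp [p, dot, Polynomial.eval_finsetSum, mul_comm]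

/-- The auxiliary data of a set of primitive vectors. -/
structure Vectors (S : Finset (Fin d → ℤ)) where
  v : Fin d → ℤ
  perp : (Fin d → ℤ) → Fin d → ℤ
  z : (Fin d → ℤ) → Fin d → ℤ
  v_ne : ∀ m ∈ S, dot v m ≠ 0
  perp_self : ∀ m ∈ S, dot (perp m) m = 0
  perp_ne : ∀ m ∈ S, ∀ m' ∈ S, m' ≠ m → m' ≠ -m → dot (perp m) m' ≠ 0
  z_one : ∀ m ∈ S, dot (z m) m = 1

theorem vectors_exist (S : Finset (Fin d → ℤ)) (hS : ∀ m ∈ S, Finset.univ.gcd m = 1) :
    Nonempty (Vectors S) := by
  classical
  obtain ⟨v, hv⟩ := avoid S fun m hm => ne_zero_of_gcd (hS m hm)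
  have hp : ∀ m ∈ S, ∃ a : Fin d → ℤ,
      dot a m = 0 ∧ ∀ m' ∈ S, m' ≠ m → m' ≠ -m → dot a m' ≠ 0 := by
    intro m hm
    have hpos := dot_self_pos (ne_zero_of_gcd (hS m hm))
    obtain ⟨w, hw⟩ := avoid
      ((S.filter fun m' => m' ≠ m ∧ m' ≠ -m).image fun m' i => dot m m * m' i - dot m m' * m i) <| by
        intro q hq
        obtain ⟨m', hm', rfl⟩ := mem_image.1 hq
        obtain ⟨hmS, hne, hneg⟩ := mem_filter.1 hm'
        intro e
        have e' : ∀ i, dot m m * m' i = dot m m' * m i := fun i => sub_eq_zero.1 (congrFun e i)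
        have hg : Finset.univ.gcd (fun i => dot m m * m' i) =
            Finset.univ.gcd (fun i => dot m m' * m i) := gcd_congr rfl fun i _ => e' i
        rw [Finset.gcd_mul_left, Finset.gcd_mul_left, hS m' hmS, hS m hm, mul_one, mul_one,
          Int.normalize_of_nonneg hpos.le, ← Int.abs_eq_normalize] at hg
        rcases abs_choice (dot m m') with h | h
        · refine hne (funext fun i => ?_)
          have := e' i
          rw [← h, ← hg] at this
          exact mul_left_cancel₀ hpos.ne' this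
        · refine hneg (funext fun i => ?_)
          have := e' i
          rw [show dot m m' = -dot m m by rw [hg, h, neg_neg], neg_mul, ← mul_neg] at this
          exact mul_left_cancel₀ hpos.ne' this
    refine ⟨fun i => dot m m * w i - dot w m * m i, ?_, fun m' hm' h1 h2 e => ?_⟩
    · simp only [dot, sub_mul, sum_sub_distrib, mul_assoc, ← mul_sum]
      ring
    · refine hw _ (mem_image.2 ⟨m', mem_filter.2 ⟨hm', h1, h2⟩, rfl⟩) ?_
      rw [← e]
      simp only [dot, mul_sub, sub_mul, sum_sub_distrib]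
      simp only [sum_mul, mul_sum]
      rw [Finset.sum_comm (f := fun i j => w j * m j * m i * m' i)]
      refine congrArg₂ _ ?_ ?_ <;>
        refine sum_congr rfl fun i _ => sum_congr rfl fun j _ => by ring
  choose! perp hperp using hp
  have hz : ∀ m ∈ S, ∃ z : Fin d → ℤ, dot z m = 1 := by
    intro m hm
    obtain ⟨z, hz⟩ := Finset.gcd_eq_sum_mul (Finset.univ : Finset (Fin d)) m
    exact ⟨z, by rw [← hS m hm, hz, dot]; exact sum_congr rfl fun i _ => mul_comm _ _⟩
  choose! z hz using hz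
  exact ⟨{ v := v, perp := perp, z := z, v_ne := hv, perp_self := fun m hm => (hperp m hm).1
           perp_ne := fun m hm => (hperp m hm).2, z_one := hz }⟩

end Vale.Agent.P110.UF.Pack
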